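import Claimed.Agent.R289.Ppp

/-!
# Row 289 (S0537), box PPP, file Ppp/Ind : INDEPENDENCE OVER DISJOINT WINDOWS (IND-n)      (helper256, prefix `pvi_`)

Generic in the measurable space `E`; `h : IsPpp m μ`; `O : ι → Set E` measurable, pairwise disjoint.
* `IsPpp.iIndepFun_restr`   the restrictions `η ↦ η ∩ O i` are independent (any index type)
* `IsPpp.indepFun_restr`    two disjoint windows
* `IsPpp.map_restr_pi` / `IsPpp.map_restr_infinitePi`   joint law of the restrictions = product of the laws
* `IsPpp.measure_iInter_restr`   product formula for events `restr (O i) ⁻¹' A i`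
* `Conf.Reads W f`  (`f (η ∩ W) = f η`), `Conf.ReadsSet W A`;  calculus (`mono`, `comp`, `inter`, `union`, `compl`, ...)
* `IsPpp.iIndepFun_reads`   measurable functions read from disjoint windows are independent
* `IsPpp.reads_null`        a NULL-measurable event read from `W` is a.e. equal to `restr W ⁻¹' A'`, `A'` measurable
* `IsPpp.measure_iInter_reads`   product formula for null-measurable events read from disjoint windows;  `IsPpp.measure_inter_reads` two events
* `IsPpp.splice_iUnion`     independent copies glued along a countable measurable partition have law `μ`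
* `IsPpp.lintegral_splice`, `IsPpp.lintegral_reads_mul`   Fubini form of the conditional expectation given `η ∩ O`
-/

set_option autoImplicit false
set_option linter.unusedSectionVars false
set_option linter.style.haveILetI false

namespace Claimed.Agent.R289

open MeasureTheory ProbabilityTheory Set Filter Topology
open scoped ENNReal NNReal

variable {E : Type*}

/-! ## 0. set algebra of void events and restrictions -/

theorem pvi_restr_void (U D : Set E) : Conf.restr U ⁻¹' Conf.void D = Conf.void (D ∩ U) := by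
  ext η; simp only [mem_preimage, Conf.mem_void, Conf.restr, mem_inter_iff, not_and, and_imp]
  exact ⟨fun h p hp hB hO => h p hp hO hB, fun h p hp hO hB => h p hp hB hO⟩

theorem pvi_void_biUnion {ι : Type*} (s : Finset ι) (C : ι → Set E) : Conf.void (⋃ i ∈ s, C i) = ⋂ i ∈ s, Conf.void (C i) := by
  ext η
  simp only [Conf.mem_void, mem_iUnion, mem_iInter, not_exists]
  exact ⟨fun h i hi p hp hpC => h p hp i hi hpC, fun h p hp i hi hpC => h i hi p hp hpC⟩

theorem pvi_restr_restr (U V : Set E) (η : Conf E) : Conf.restr U (Conf.restr V η) = Conf.restr (V ∩ U) η := by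
  ext p; simp only [Conf.restr, mem_inter_iff, and_assoc]

theorem pvi_restr_idem (U : Set E) (η : Conf E) : Conf.restr U (Conf.restr U η) = Conf.restr U η := by
  rw [pvi_restr_restr, inter_self]

theorem pvi_restr_of_subset {U V : Set E} (h : U ⊆ V) (η : Conf E) : Conf.restr U (Conf.restr V η) = Conf.restr U η := by
  rw [pvi_restr_restr, inter_eq_right.2 h]

theorem pvi_restr_union_compl (U : Set E) (η : Conf E) : Conf.union (Conf.restr U η) (Conf.restr Uᶜ η) = η := by
  ext p; simp only [Conf.union, Conf.restr, mem_union, mem_inter_iff, mem_compl_iff]; tauto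

theorem pvi_restr_union (U : Set E) (η η' : Conf E) : Conf.restr U (Conf.union η η') = Conf.union (Conf.restr U η) (Conf.restr U η') := by
  ext p; simp only [Conf.union, Conf.restr, mem_union, mem_inter_iff]; tauto

theorem pvi_restr_splice (U : Set E) (η η' : Conf E) : Conf.restr U (Conf.union (Conf.restr U η) (Conf.restr Uᶜ η')) = Conf.restr U η := by
  ext p; simp only [Conf.union, Conf.restr, mem_union, mem_inter_iff, mem_compl_iff]; tauto

theorem pvi_restr_splice' (U : Set E) (η η' : Conf E) : Conf.restr Uᶜ (Conf.union (Conf.restr U η) (Conf.restr Uᶜ η')) = Conf.restr Uᶜ η' := by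
  ext p; simp only [Conf.union, Conf.restr, mem_union, mem_inter_iff, mem_compl_iff]; tauto

/-! ## 1. functions and events READ from a window -/

/-- `f` is read from the window `W` -/
def Conf.Reads {β : Type*} (W : Set E) (f : Conf E → β) : Prop := ∀ η, f (Conf.restr W η) = f η

/-- the event `A` is read from the window `W` -/
def Conf.ReadsSet (W : Set E) (A : Set (Conf E)) : Prop := ∀ η, Conf.restr W η ∈ A ↔ η ∈ A

theorem pvi_eqns_cite : True := by
  have := @Conf.Reads.eq_1.{0, 0}; have := @Conf.Reads.eq_def.{0, 0}; have := @Conf.ReadsSet.eq_1.{0}; have := @Conf.ReadsSet.eq_def.{0}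
  trivial

theorem Conf.Reads.eq_of_restr {β : Type*} {W : Set E} {f : Conf E → β} (h : Conf.Reads W f) {η η' : Conf E}
    (e : Conf.restr W η = Conf.restr W η') : f η = f η' := by rw [← h η, e, h η']

theorem Conf.reads_iff {β : Type*} {W : Set E} {f : Conf E → β} :
    Conf.Reads W f ↔ ∀ η η', Conf.restr W η = Conf.restr W η' → f η = f η' :=
  ⟨fun h _ _ e => h.eq_of_restr e, fun h η => h _ _ (pvi_restr_idem W η)⟩

theorem Conf.Reads.comp_eq {β : Type*} {W : Set E} {f : Conf E → β} (h : Conf.Reads W f) : f ∘ Conf.restr W = f := funext h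

theorem Conf.Reads.mono {β : Type*} {W W' : Set E} {f : Conf E → β} (h : Conf.Reads W f) (hs : W ⊆ W') : Conf.Reads W' f := fun η => by
  rw [← h, pvi_restr_of_subset hs, h]

theorem Conf.Reads.comp {β γ : Type*} {W : Set E} {f : Conf E → β} (h : Conf.Reads W f) (g : β → γ) : Conf.Reads W (g ∘ f) := fun η => by
  simp only [Function.comp, h η]

theorem Conf.Reads.prodMk {β γ : Type*} {W : Set E} {f : Conf E → β} {g : Conf E → γ} (h : Conf.Reads W f) (h' : Conf.Reads W g) :
    Conf.Reads W fun η => (f η, g η) := fun η => by simp only [h η, h' η]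

theorem Conf.Reads.pi {ι : Type*} {β : ι → Type*} {W : Set E} {f : ∀ i, Conf E → β i} (h : ∀ i, Conf.Reads W (f i)) :
    Conf.Reads W fun η i => f i η := fun η => funext fun i => h i η

theorem Conf.reads_const {β : Type*} (W : Set E) (b : β) : Conf.Reads W fun _ : Conf E => b := fun _ => rfl

theorem Conf.reads_restr (W : Set E) : Conf.Reads W (Conf.restr W) := pvi_restr_idem W

theorem Conf.reads_comp_restr {β : Type*} (W : Set E) (g : Conf E → β) : Conf.Reads W (g ∘ Conf.restr W) := fun η => by
  simp only [Function.comp, pvi_restr_idem]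

theorem Conf.reads_univ {β : Type*} (f : Conf E → β) : Conf.Reads univ f := fun η => by
  congr 1; ext p; simp [Conf.restr]

theorem Conf.readsSet_iff_reads {W : Set E} {A : Set (Conf E)} : Conf.ReadsSet W A ↔ Conf.Reads W (· ∈ A) :=
  ⟨fun h η => propext (h η), fun h η => iff_of_eq (h η)⟩

theorem Conf.ReadsSet.preimage_eq {W : Set E} {A : Set (Conf E)} (h : Conf.ReadsSet W A) : Conf.restr W ⁻¹' A = A := Set.ext h

theorem Conf.readsSet_preimage (W : Set E) (A : Set (Conf E)) : Conf.ReadsSet W (Conf.restr W ⁻¹' A) := fun η => by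
  simp only [mem_preimage, pvi_restr_idem]

theorem Conf.ReadsSet.mono {W W' : Set E} {A : Set (Conf E)} (h : Conf.ReadsSet W A) (hs : W ⊆ W') : Conf.ReadsSet W' A :=
  Conf.readsSet_iff_reads.2 ((Conf.readsSet_iff_reads.1 h).mono hs)

theorem Conf.ReadsSet.compl {W : Set E} {A : Set (Conf E)} (h : Conf.ReadsSet W A) : Conf.ReadsSet W Aᶜ := fun η => not_congr (h η)

theorem Conf.ReadsSet.inter {W : Set E} {A B : Set (Conf E)} (h : Conf.ReadsSet W A) (h' : Conf.ReadsSet W B) : Conf.ReadsSet W (A ∩ B) :=
  fun η => and_congr (h η) (h' η)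

theorem Conf.ReadsSet.union {W : Set E} {A B : Set (Conf E)} (h : Conf.ReadsSet W A) (h' : Conf.ReadsSet W B) : Conf.ReadsSet W (A ∪ B) :=
  fun η => or_congr (h η) (h' η)

theorem Conf.ReadsSet.diff {W : Set E} {A B : Set (Conf E)} (h : Conf.ReadsSet W A) (h' : Conf.ReadsSet W B) : Conf.ReadsSet W (A \ B) :=
  h.inter h'.compl

theorem Conf.ReadsSet.iInter {ι : Sort*} {W : Set E} {A : ι → Set (Conf E)} (h : ∀ i, Conf.ReadsSet W (A i)) : Conf.ReadsSet W (⋂ i, A i) :=
  fun η => by simp only [mem_iInter, h _ η]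

theorem Conf.ReadsSet.iUnion {ι : Sort*} {W : Set E} {A : ι → Set (Conf E)} (h : ∀ i, Conf.ReadsSet W (A i)) : Conf.ReadsSet W (⋃ i, A i) :=
  fun η => by simp only [mem_iUnion, h _ η]

theorem Conf.Reads.preimage {β : Type*} {W : Set E} {f : Conf E → β} (h : Conf.Reads W f) (t : Set β) : Conf.ReadsSet W (f ⁻¹' t) :=
  fun η => by simp only [mem_preimage, h η]

theorem Conf.ReadsSet.indicator {β : Type*} [Zero β] {W : Set E} {A : Set (Conf E)} (h : Conf.ReadsSet W A) {f : Conf E → β}
    (hf : Conf.Reads W f) : Conf.Reads W (A.indicator f) := fun η => by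
  classical
  simp only [indicator_apply, h η, hf η]

theorem Conf.readsSet_void {W B : Set E} (h : B ⊆ W) : Conf.ReadsSet W (Conf.void B) := fun η => by
  simp only [Conf.mem_void, Conf.restr, mem_inter_iff, and_imp]
  exact ⟨fun k p hp hB => k p hp (h hB) hB, fun k p hp _ => k p hp⟩

variable [MeasurableSpace E]

/-! ## 2. independence of the restrictions -/

theorem pvi_comap_restr (U : Set E) : MeasurableSpace.comap (Conf.restr U) (inferInstance : MeasurableSpace (Conf E))
    = MeasurableSpace.generateFrom {s | ∃ t ∈ Conf.voids E, Conf.restr U ⁻¹' t = s} := by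
  have : (inferInstance : MeasurableSpace (Conf E)) = MeasurableSpace.generateFrom (Conf.voids E) := rfl
  rw [this, MeasurableSpace.comap_generateFrom]
  rfl

namespace IsPpp

variable {m : Measure E} {μ : Measure (Conf E)}

/-- **IND-n**: the restrictions to pairwise disjoint measurable windows are independent -/
theorem iIndepFun_restr {ι : Type*} (h : IsPpp m μ) {O : ι → Set E} (hO : ∀ i, MeasurableSet (O i))
    (hd : Pairwise (Function.onFun Disjoint O)) : iIndepFun (fun i => Conf.restr (O i)) μ := by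
  have := h.prob
  refine iIndepSets.iIndep (fun i => (Conf.measurable_restr (hO i)).comap_le) (fun i => {s | ∃ t ∈ Conf.voids E, Conf.restr (O i) ⁻¹' t = s})
    (fun i => Conf.isPiSystem_voids.comap _) (fun i => pvi_comap_restr (O i)) ?_
  rw [iIndepSets_iff]
  intro s f hf
  choose! B hB using fun i (hi : i ∈ s) => (hf i hi)
  have hB' : ∀ i ∈ s, ∃ C, MeasurableSet C ∧ f i = Conf.void (C ∩ O i) := by
    intro i hi
    obtain ⟨⟨C, hC, e⟩, e'⟩ := hB i hi
    exact ⟨C, hC, by rw [← e', e, pvi_restr_void]⟩
  choose! C hC hfC using hB'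
  have e1 : ⋂ i ∈ s, f i = Conf.void (⋃ i ∈ s, C i ∩ O i) := by
    rw [pvi_void_biUnion]
    exact iInter₂_congr fun i hi => hfC i hi
  rw [e1, h.void _ (Finset.measurableSet_biUnion s fun i hi => (hC i hi).inter (hO i)),
    measure_biUnion_finset (fun i _ j _ hij => (hd hij).mono inter_subset_right inter_subset_right) (fun i hi => (hC i hi).inter (hO i)),
    expNeg_finset_sum]
  exact Finset.prod_congr rfl fun i hi => by rw [hfC i hi, h.void _ ((hC i hi).inter (hO i))]

/-- two disjoint windows -/
theorem indepFun_restr (h : IsPpp m μ) {O O' : Set E} (hO : MeasurableSet O) (hO' : MeasurableSet O') (hd : Disjoint O O') :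
    IndepFun (Conf.restr O) (Conf.restr O') μ := by
  have h1 := h.iIndepFun_restr (O := fun b : Bool => if b then O else O') (fun b => by cases b <;> simpa)
    (by
      intro a b hab
      cases a <;> cases b <;> simp_all [Function.onFun, disjoint_comm])
  exact h1.indepFun (i := true) (j := false) (by simp)

/-- joint law of finitely many restrictions -/
theorem map_restr_pi {ι : Type*} [Fintype ι] (h : IsPpp m μ) {O : ι → Set E} (hO : ∀ i, MeasurableSet (O i))
    (hd : Pairwise (Function.onFun Disjoint O)) :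
    μ.map (fun η i => Conf.restr (O i) η) = Measure.pi fun i => μ.map (Conf.restr (O i)) := by
  have := h.prob
  exact (iIndepFun_iff_map_fun_eq_pi_map fun i => (Conf.measurable_restr (hO i)).aemeasurable).1 (h.iIndepFun_restr hO hd)

/-- joint law of the restrictions, any index type -/
theorem map_restr_infinitePi {ι : Type*} (h : IsPpp m μ) {O : ι → Set E} (hO : ∀ i, MeasurableSet (O i))
    (hd : Pairwise (Function.onFun Disjoint O)) :
    haveI := h.prob
    haveI := fun i => (h.restr (hO i)).prob
    μ.map (fun η i => Conf.restr (O i) η) = Measure.infinitePi fun i => μ.map (Conf.restr (O i)) := by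
  haveI := h.prob
  haveI := fun i => (h.restr (hO i)).prob
  exact (iIndepFun_iff_map_fun_eq_infinitePi_map fun i => Conf.measurable_restr (hO i)).1 (h.iIndepFun_restr hO hd)

/-- product formula -/
theorem measure_iInter_restr {ι : Type*} (h : IsPpp m μ) {O : ι → Set E} (hO : ∀ i, MeasurableSet (O i))
    (hd : Pairwise (Function.onFun Disjoint O)) (s : Finset ι) {A : ι → Set (Conf E)} (hA : ∀ i ∈ s, MeasurableSet (A i)) :
    μ (⋂ i ∈ s, Conf.restr (O i) ⁻¹' A i) = ∏ i ∈ s, μ (Conf.restr (O i) ⁻¹' A i) :=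
  (h.iIndepFun_restr hO hd).measure_inter_preimage_eq_mul s hA

/-- measurable functions read from disjoint windows are independent -/
theorem iIndepFun_reads {ι : Type*} {β : ι → Type*} [∀ i, MeasurableSpace (β i)] (h : IsPpp m μ) {O : ι → Set E}
    (hO : ∀ i, MeasurableSet (O i)) (hd : Pairwise (Function.onFun Disjoint O)) {f : ∀ i, Conf E → β i}
    (hf : ∀ i, Measurable (f i)) (hr : ∀ i, Conf.Reads (O i) (f i)) : iIndepFun f μ := by
  have h1 := (h.iIndepFun_restr hO hd).comp f hf
  have e : (fun i => f i ∘ Conf.restr (O i)) = f := funext fun i => (hr i).comp_eq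
  rwa [e] at h1

theorem indepFun_reads {β γ : Type*} [MeasurableSpace β] [MeasurableSpace γ] (h : IsPpp m μ) {O O' : Set E} (hO : MeasurableSet O)
    (hO' : MeasurableSet O') (hd : Disjoint O O') {f : Conf E → β} {g : Conf E → γ} (hf : Measurable f) (hg : Measurable g)
    (hrf : Conf.Reads O f) (hrg : Conf.Reads O' g) : IndepFun f g μ := by
  have h1 := (h.indepFun_restr hO hO' hd).comp hf hg
  rwa [hrf.comp_eq, hrg.comp_eq] at h1

/-! ## 3. null-measurable events read from a window -/

/-- the splice map -/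
theorem pvi_measurable_splice {O : Set E} (hO : MeasurableSet O) :
    Measurable fun x : Conf E × Conf E => Conf.union (Conf.restr O x.1) (Conf.restr Oᶜ x.2) :=
  Conf.measurable_union.comp (((Conf.measurable_restr hO).comp measurable_fst).prodMk ((Conf.measurable_restr hO.compl).comp measurable_snd))

/-- an a.e. property of `η` holds a.e. for the splice of two independent copies -/
theorem ae_splice (h : IsPpp m μ) {O : Set E} (hO : MeasurableSet O) {p : Conf E → Prop} (hp : ∀ᵐ η ∂μ, p η) :
    ∀ᵐ x ∂(μ.prod μ), p (Conf.union (Conf.restr O x.1) (Conf.restr Oᶜ x.2)) := by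
  rw [← h.splice hO] at hp
  exact ae_of_ae_map (pvi_measurable_splice hO).aemeasurable hp

theorem ae_ae_splice (h : IsPpp m μ) {O : Set E} (hO : MeasurableSet O) {p : Conf E → Prop} (hp : ∀ᵐ η ∂μ, p η) :
    ∀ᵐ σ ∂μ, ∀ᵐ η' ∂μ, p (Conf.union (Conf.restr O σ) (Conf.restr Oᶜ η')) := by
  have := h.prob
  exact Measure.ae_ae_of_ae_prod (h.ae_splice hO hp)

theorem ae_ae_splice' (h : IsPpp m μ) {O : Set E} (hO : MeasurableSet O) {p : Conf E → Prop} (hp : ∀ᵐ η ∂μ, p η) :
    ∀ᵐ η' ∂μ, ∀ᵐ σ ∂μ, p (Conf.union (Conf.restr O σ) (Conf.restr Oᶜ η')) := by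
  have := h.prob
  have h1 := h.ae_splice hO hp
  have h2 : ∀ᵐ y ∂(μ.prod μ), p (Conf.union (Conf.restr O y.swap.1) (Conf.restr Oᶜ y.swap.2)) :=
    (Measure.measurePreserving_swap (μ := μ) (ν := μ)).quasiMeasurePreserving.ae h1
  exact Measure.ae_ae_of_ae_prod h2

/-- a NULL-measurable event read from `W` is a.e. equal to a measurable event of the restriction to `W` -/
theorem reads_null (h : IsPpp m μ) {W : Set E} (hW : MeasurableSet W) {A : Set (Conf E)} (hA : NullMeasurableSet A μ)
    (hr : Conf.ReadsSet W A) : ∃ A', MeasurableSet A' ∧ A =ᵐ[μ] Conf.restr W ⁻¹' A' := by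
  have := h.prob
  obtain ⟨B, -, hBm, hAB⟩ := hA.exists_measurable_superset_ae_eq
  have h0 : ∀ᵐ η ∂μ, (η ∈ A ↔ η ∈ B) := by
    filter_upwards [hAB] with η hη
    exact (iff_of_eq hη).symm
  obtain ⟨c, hc⟩ := (h.ae_ae_splice' hW h0).exists
  refine ⟨(fun σ => Conf.union σ (Conf.restr Wᶜ c)) ⁻¹' B, Conf.measurable_union.comp (measurable_id.prodMk measurable_const) hBm, ?_⟩
  filter_upwards [hc] with σ hσ
  refine propext ?_
  show σ ∈ A ↔ Conf.union (Conf.restr W σ) (Conf.restr Wᶜ c) ∈ B
  rw [← hσ, ← hr (Conf.union _ _), pvi_restr_splice, hr]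

/-- the same for functions: an a.e. measurable function read from `W` is a.e. a measurable function of the restriction -/
theorem reads_aemeasurable {β : Type*} [MeasurableSpace β] (h : IsPpp m μ) {W : Set E} (hW : MeasurableSet W) {f : Conf E → β}
    (hf : AEMeasurable f μ) (hr : Conf.Reads W f) : ∃ g : Conf E → β, Measurable g ∧ f =ᵐ[μ] g ∘ Conf.restr W := by
  have := h.prob
  obtain ⟨c, hc⟩ := (h.ae_ae_splice' hW hf.ae_eq_mk).exists
  refine ⟨fun σ => hf.mk f (Conf.union σ (Conf.restr Wᶜ c)), hf.measurable_mk.comp (Conf.measurable_union.comp (measurable_id.prodMk measurable_const)), ?_⟩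
  filter_upwards [hc] with σ hσ
  show f σ = hf.mk f (Conf.union (Conf.restr W σ) (Conf.restr Wᶜ c))
  rw [← hσ, ← hr (Conf.union _ _), pvi_restr_splice, hr]

/-- a.e. measurable functions read from disjoint windows are independent -/
theorem iIndepFun_reads₀ {ι : Type*} {β : ι → Type*} [∀ i, MeasurableSpace (β i)] (h : IsPpp m μ) {O : ι → Set E}
    (hO : ∀ i, MeasurableSet (O i)) (hd : Pairwise (Function.onFun Disjoint O)) {f : ∀ i, Conf E → β i}
    (hf : ∀ i, AEMeasurable (f i) μ) (hr : ∀ i, Conf.Reads (O i) (f i)) : iIndepFun f μ := by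
  choose g hg hfg using fun i => h.reads_aemeasurable (hO i) (hf i) (hr i)
  exact ((h.iIndepFun_restr hO hd).comp g hg).congr fun i => (hfg i).symm

theorem indepFun_reads₀ {β γ : Type*} [MeasurableSpace β] [MeasurableSpace γ] (h : IsPpp m μ) {O O' : Set E} (hO : MeasurableSet O)
    (hO' : MeasurableSet O') (hd : Disjoint O O') {f : Conf E → β} {g : Conf E → γ} (hf : AEMeasurable f μ) (hg : AEMeasurable g μ)
    (hrf : Conf.Reads O f) (hrg : Conf.Reads O' g) : IndepFun f g μ := by
  obtain ⟨f', hf', ef⟩ := h.reads_aemeasurable hO hf hrf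
  obtain ⟨g', hg', eg⟩ := h.reads_aemeasurable hO' hg hrg
  exact ((h.indepFun_restr hO hO' hd).comp hf' hg').congr ef.symm eg.symm

/-- **product formula** for null-measurable events read from pairwise disjoint windows -/
theorem measure_iInter_reads {ι : Type*} (h : IsPpp m μ) {O : ι → Set E} (s : Finset ι) (hO : ∀ i ∈ s, MeasurableSet (O i))
    (hd : (s : Set ι).PairwiseDisjoint O) {A : ι → Set (Conf E)} (hA : ∀ i ∈ s, NullMeasurableSet (A i) μ)
    (hr : ∀ i ∈ s, Conf.ReadsSet (O i) (A i)) : μ (⋂ i ∈ s, A i) = ∏ i ∈ s, μ (A i) := by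
  classical
  set O' : ι → Set E := fun i => if i ∈ s then O i else ∅ with hO'
  have hO'm : ∀ i, MeasurableSet (O' i) := by
    intro i
    by_cases hi : i ∈ s
    · simpa [hO', hi] using hO i hi
    · simp [hO', hi]
  have hO'd : Pairwise (Function.onFun Disjoint O') := by
    intro i j hij
    by_cases hi : i ∈ s
    · by_cases hj : j ∈ s
      · simpa [Function.onFun, hO', hi, hj] using hd hi hj hij
      · simp [Function.onFun, hO', hj]
    · simp [Function.onFun, hO', hi]
  have hex : ∀ i ∈ s, ∃ A', MeasurableSet A' ∧ A i =ᵐ[μ] Conf.restr (O' i) ⁻¹' A' := by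
    intro i hi
    have e : O' i = O i := by simp [hO', hi]
    rw [e]
    exact h.reads_null (hO i hi) (hA i hi) (hr i hi)
  choose! A' hA'm hA' using hex
  have e1 : (⋂ i ∈ s, A i : Set (Conf E)) =ᵐ[μ] ⋂ i ∈ s, Conf.restr (O' i) ⁻¹' A' i := by
    have h2 : ∀ᵐ η ∂μ, ∀ i ∈ s, (η ∈ A i ↔ η ∈ Conf.restr (O' i) ⁻¹' A' i) := by
      rw [eventually_all_finset]
      intro i hi
      filter_upwards [hA' i hi] with η hη
      exact iff_of_eq hη
    filter_upwards [h2] with η hη
    refine propext ?_
    show η ∈ ⋂ i ∈ s, A i ↔ η ∈ ⋂ i ∈ s, Conf.restr (O' i) ⁻¹' A' i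
    simp only [mem_iInter]
    exact forall₂_congr hη
  rw [measure_congr e1, h.measure_iInter_restr hO'm hO'd s hA'm]
  exact Finset.prod_congr rfl fun i hi => (measure_congr (hA' i hi)).symm

/-- two null-measurable events read from disjoint windows -/
theorem measure_inter_reads (h : IsPpp m μ) {O O' : Set E} (hO : MeasurableSet O) (hO' : MeasurableSet O') (hd : Disjoint O O')
    {A B : Set (Conf E)} (hA : NullMeasurableSet A μ) (hB : NullMeasurableSet B μ) (hrA : Conf.ReadsSet O A) (hrB : Conf.ReadsSet O' B) :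
    μ (A ∩ B) = μ A * μ B := by
  obtain ⟨A', hA'm, eA⟩ := h.reads_null hO hA hrA
  obtain ⟨B', hB'm, eB⟩ := h.reads_null hO' hB hrB
  rw [measure_congr (eA.inter eB), measure_congr eA, measure_congr eB]
  exact (h.indepFun_restr hO hO' hd).measure_inter_preimage_eq_mul _ _ hA'm hB'm

/-! ## 4. splice over a partition; Fubini form of the conditional expectation given `η ∩ O` -/

/-- independent copies glued along a countable measurable partition have law `μ` -/
theorem splice_iUnion {ι : Type*} [Countable ι] (h : IsPpp m μ) {O : ι → Set E} (hO : ∀ i, MeasurableSet (O i))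
    (hd : Pairwise (Function.onFun Disjoint O)) (hc : ⋃ i, O i = univ) :
    haveI := h.prob
    (Measure.infinitePi fun _ : ι => μ).map (fun x => Conf.iUnion fun i => Conf.restr (O i) (x i)) = μ := by
  haveI := h.prob
  have h1 := IsPpp.iUnion fun i => h.restr (hO i)
  rw [← Measure.restrict_iUnion hd hO, hc, Measure.restrict_univ] at h1
  refine IsPpp.unique ?_ h
  have e : (Measure.infinitePi fun _ : ι => μ).map (fun x => Conf.iUnion fun i => Conf.restr (O i) (x i))
      = ((Measure.infinitePi fun _ : ι => μ).map fun x i => Conf.restr (O i) (x i)).map Conf.iUnion := by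
    have hm : Measurable fun (x : ι → Conf E) i => Conf.restr (O i) (x i) :=
      measurable_pi_lambda _ fun i => (Conf.measurable_restr (hO i)).comp (measurable_pi_apply i)
    rw [Measure.map_map Conf.measurable_iUnion hm]
    rfl
  rw [e, Measure.infinitePi_map_pi _ fun i => Conf.measurable_restr (hO i)]
  exact h1

theorem lintegral_splice (h : IsPpp m μ) {O : Set E} (hO : MeasurableSet O) {f : Conf E → ℝ≥0∞} (hf : AEMeasurable f μ) :
    ∫⁻ η, f η ∂μ = ∫⁻ σ, ∫⁻ η', f (Conf.union (Conf.restr O σ) (Conf.restr Oᶜ η')) ∂μ ∂μ := by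
  have := h.prob
  have hf' : AEMeasurable f ((μ.prod μ).map fun x => Conf.union (Conf.restr O x.1) (Conf.restr Oᶜ x.2)) := by rwa [h.splice hO]
  conv_lhs => rw [← h.splice hO]
  rw [lintegral_map' hf' (pvi_measurable_splice hO).aemeasurable]
  exact lintegral_prod _ (hf'.comp_aemeasurable (pvi_measurable_splice hO).aemeasurable)

/-- `E[g f] = E[g E[f | η ∩ O]]` for `g` read from `O`, the conditional expectation being the honest integral over an independent copy outside `O` -/
theorem lintegral_reads_mul (h : IsPpp m μ) {O : Set E} (hO : MeasurableSet O) {g f : Conf E → ℝ≥0∞} (hg : AEMeasurable g μ)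
    (hr : Conf.Reads O g) (hf : AEMeasurable f μ) :
    ∫⁻ η, g η * f η ∂μ = ∫⁻ σ, g σ * ∫⁻ η', f (Conf.union (Conf.restr O σ) (Conf.restr Oᶜ η')) ∂μ ∂μ := by
  have := h.prob
  have hgf : AEMeasurable (fun η => g η * f η) μ := hg.mul hf
  rw [h.lintegral_splice hO hgf]
  refine lintegral_congr_ae ?_
  filter_upwards [h.ae_ae_splice hO hf.ae_eq_mk] with σ hσ
  have e1 : ∀ η', g (Conf.union (Conf.restr O σ) (Conf.restr Oᶜ η')) = g σ := fun η' => by rw [← hr, pvi_restr_splice, hr]
  simp only [e1]
  rw [lintegral_congr_ae (hσ.mono fun η' e => by rw [e]), lintegral_congr_ae hσ]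
  exact lintegral_const_mul _ (hf.measurable_mk.comp ((pvi_measurable_splice hO).comp (measurable_const.prodMk measurable_id)))

/-- probability form: `μ (A ∩ B) = ∫_A P(B | η ∩ O)` for `A` read from `O` -/
theorem measure_inter_reads_eq (h : IsPpp m μ) {O : Set E} (hO : MeasurableSet O) {A B : Set (Conf E)} (hA : NullMeasurableSet A μ)
    (hr : Conf.ReadsSet O A) (hB : NullMeasurableSet B μ) :
    μ (A ∩ B) = ∫⁻ σ in A, μ {η' | Conf.union (Conf.restr O σ) (Conf.restr Oᶜ η') ∈ B} ∂μ := by
  have := h.prob
  obtain ⟨B', -, hB'm, hBB'⟩ := hB.exists_measurable_superset_ae_eq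
  have h0 : ∀ᵐ η ∂μ, (η ∈ B ↔ η ∈ B') := by
    filter_upwards [hBB'] with η hη
    exact (iff_of_eq hη).symm
  have h1 := h.ae_ae_splice hO h0
  have key := h.lintegral_reads_mul hO (g := A.indicator 1) (f := B'.indicator 1)
    ((aemeasurable_indicator_const_iff (1 : ℝ≥0∞)).2 hA) (hr.indicator (Conf.reads_const _ _))
    (measurable_const.indicator hB'm).aemeasurable
  calc μ (A ∩ B) = μ (A ∩ B') := measure_congr ((ae_eq_refl A).inter hBB'.symm)
    _ = ∫⁻ η, A.indicator 1 η * B'.indicator 1 η ∂μ := by
        rw [← lintegral_indicator_one₀ (hA.inter hB'm.nullMeasurableSet), Set.inter_indicator_one]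
        rfl
    _ = ∫⁻ σ, A.indicator 1 σ * ∫⁻ η', B'.indicator 1 (Conf.union (Conf.restr O σ) (Conf.restr Oᶜ η')) ∂μ ∂μ := key
    _ = ∫⁻ σ, A.indicator (fun σ => μ {η' | Conf.union (Conf.restr O σ) (Conf.restr Oᶜ η') ∈ B}) σ ∂μ := by
        refine lintegral_congr_ae ?_
        filter_upwards [h1] with σ hσ
        have hm : MeasurableSet {η' | Conf.union (Conf.restr O σ) (Conf.restr Oᶜ η') ∈ B'} :=
          ((pvi_measurable_splice hO).comp (measurable_const.prodMk measurable_id)) hB'm
        have e2 : ∫⁻ η', B'.indicator 1 (Conf.union (Conf.restr O σ) (Conf.restr Oᶜ η')) ∂μ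
            = μ {η' | Conf.union (Conf.restr O σ) (Conf.restr Oᶜ η') ∈ B} := by
          have e3 : ({η' | Conf.union (Conf.restr O σ) (Conf.restr Oᶜ η') ∈ B} : Set (Conf E))
              =ᵐ[μ] {η' | Conf.union (Conf.restr O σ) (Conf.restr Oᶜ η') ∈ B'} := by
            filter_upwards [hσ] with η' hη'
            exact propext hη'
          rw [measure_congr e3, ← lintegral_indicator_one hm]
          rfl
        rw [e2]
        by_cases hσA : σ ∈ A <;> simp [hσA]
    _ = ∫⁻ σ in A, μ {η' | Conf.union (Conf.restr O σ) (Conf.restr Oᶜ η') ∈ B} ∂μ := lintegral_indicator₀ hA _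

end IsPpp

end Claimed.Agent.R289
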