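import Claimed.Agent.R289.PppCnt

/-!
# Row 289 (S0537), box PPP, file Ppp/Series : THE FINITE VOLUME SERIES (P3a), BRIDGE T2 ON TUPLES, SUMS OVER POINTS      (helper69; prefix `pvs_`)

Generic in the mark space `E` (`Conf E`, void sigma-algebra, `IsPpp m μ` of `Ppp.lean`).
* `pppFin m = Σ_n e^{-|m|}/n! · (m^n).map Conf.ofFn`;  `pvs_isPpp : IsPpp m (pppFin m)` (finite `m`);  `IsPpp.eq_pppFin`;
  **SERIES** `IsPpp.map_restr_eq : μ.map (restr W) = pppFin (m.restrict W)` when `m W < ∞`;
  `pvs_lintegral`, `pvs_lintegral'` (a.e. measurable integrand), `pvs_apply`, `IsPpp.lintegral_restr`;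
  `pvs_ae`, `IsPpp.ae_restr` : a measurable property true for `m^n`-a.e. tuple (all `n`) holds a.s.
* **T2** `pvs_T2` : measurability in the coordinates of tuples ⇒ measurability of `η ↦ Φ (a, η ∩ W)` on `{η ∩ W finite}` (parameter `a`).
* sums over points: `pvs_sum_meas`, `pvs_sum_meas_LF` (measurable versions), `pvs_tsum_cell`, `pvs_tsum_partition`.
* `IsPpp.ae_finite`;  `pvs_ae_ne`, `pvs_ae_injective` (diffuse intensity).
-/

set_option autoImplicit false

namespace Claimed.Agent.R289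

open MeasureTheory ProbabilityTheory Set Filter Topology
open scoped ENNReal NNReal

/-! ## 1. the series -/

theorem pvs_tsum_exp (b : ℝ≥0∞) (hb : b ≠ ∞) :
    ∑' n : ℕ, b ^ n * ((n.factorial : ℝ≥0∞))⁻¹ = ENNReal.ofReal (Real.exp b.toReal) := by
  have h0 : 0 ≤ b.toReal := ENNReal.toReal_nonneg
  have hs : Summable fun n : ℕ => b.toReal ^ n / (n.factorial : ℝ) := Real.summable_pow_div_factorial _
  have he : Real.exp b.toReal = ∑' n : ℕ, b.toReal ^ n / (n.factorial : ℝ) := by
    rw [Real.exp_eq_exp_ℝ, NormedSpace.exp_eq_tsum_div]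
  rw [he, ENNReal.ofReal_tsum_of_nonneg (fun n => by positivity) hs]
  refine tsum_congr fun n => ?_
  rw [div_eq_mul_inv, ENNReal.ofReal_mul (by positivity), ENNReal.ofReal_pow h0, ENNReal.ofReal_toReal hb,
    ENNReal.ofReal_inv_of_pos (by positivity), ENNReal.ofReal_natCast]

theorem pvs_expNeg_mul_exp (a b : ℝ≥0∞) (hb : b ≠ ∞) :
    expNeg (a + b) * ENNReal.ofReal (Real.exp b.toReal) = expNeg a := by
  rw [expNeg_add, mul_assoc]
  have : expNeg b * ENNReal.ofReal (Real.exp b.toReal) = 1 := by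
    unfold expNeg
    rw [if_neg hb, ← ENNReal.ofReal_mul (Real.exp_pos _).le, ← Real.exp_add]
    simp
  rw [this, mul_one]

variable {E : Type*} [MeasurableSpace E]

/-- Poisson weights without the power of the mass: `e^{-a} / n!` -/
noncomputable def pvsW (a : ℝ≥0∞) (n : ℕ) : ℝ≥0∞ := expNeg a * ((n.factorial : ℝ≥0∞))⁻¹

/-- the image of `m^n` under `x ↦ {x_0, …, x_{n-1}}` -/
noncomputable def pvsBin (m : Measure E) (n : ℕ) : Measure (Conf E) := (Measure.pi fun _ : Fin n => m).map Conf.ofFn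

/-- **the finite volume Poisson process as a series** -/
noncomputable def pppFin (m : Measure E) : Measure (Conf E) := Measure.sum fun n => pvsW (m univ) n • pvsBin m n

omit [MeasurableSpace E] in
theorem pvs_ofFn_preimage_void {n : ℕ} (B : Set E) : (Conf.ofFn : (Fin n → E) → Conf E) ⁻¹' Conf.void B = Set.pi univ fun _ => Bᶜ := by
  ext x
  simp only [mem_preimage, Conf.mem_void, Conf.ofFn, mem_range, forall_exists_index, forall_apply_eq_imp_iff, Set.mem_pi, mem_univ,
    forall_true_left, mem_compl_iff]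

theorem pvs_bin_void (m : Measure E) [SigmaFinite m] (n : ℕ) {B : Set E} (hB : MeasurableSet B) : pvsBin m n (Conf.void B) = m Bᶜ ^ n := by
  unfold pvsBin
  rw [Measure.map_apply (Conf.measurable_ofFn n) (Conf.measurableSet_void hB), pvs_ofFn_preimage_void, Measure.pi_pi]
  simp

theorem pvs_isPpp (m : Measure E) [IsFiniteMeasure m] : IsPpp m (pppFin m) := ⟨fun B hB => by
  unfold pppFin
  rw [Measure.sum_apply _ (Conf.measurableSet_void hB)]
  simp only [Measure.smul_apply, smul_eq_mul, pvs_bin_void m _ hB, pvsW]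
  have : ∀ n : ℕ, expNeg (m univ) * ((n.factorial : ℝ≥0∞))⁻¹ * m Bᶜ ^ n = expNeg (m univ) * (m Bᶜ ^ n * ((n.factorial : ℝ≥0∞))⁻¹) := fun n => by ring
  simp only [this]
  rw [ENNReal.tsum_mul_left, pvs_tsum_exp _ (measure_ne_top m _), ← measure_add_measure_compl hB,
    pvs_expNeg_mul_exp _ _ (measure_ne_top m _)]⟩

/-! ## 2. every Poisson process of finite intensity is the series -/

theorem IsPpp.eq_pppFin {m : Measure E} {μ : Measure (Conf E)} [IsFiniteMeasure m] (h : IsPpp m μ) : μ = pppFin m :=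
  h.unique (pvs_isPpp m)

/-- **SERIES**: the restriction to a set of finite mass -/
theorem IsPpp.map_restr_eq {m : Measure E} {μ : Measure (Conf E)} (h : IsPpp m μ) {W : Set E} (hW : MeasurableSet W) (hf : m W ≠ ∞) :
    μ.map (Conf.restr W) = pppFin (m.restrict W) := by
  have : IsFiniteMeasure (m.restrict W) := ⟨by rw [Measure.restrict_apply_univ]; exact hf.lt_top⟩
  exact (h.restr hW).eq_pppFin

theorem pvsW_ne_zero {a : ℝ≥0∞} (ha : a ≠ ∞) (n : ℕ) : pvsW a n ≠ 0 := by
  unfold pvsW expNeg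
  rw [if_neg ha]
  refine mul_ne_zero ?_ (ENNReal.inv_ne_zero.2 (ENNReal.natCast_ne_top _))
  rw [Ne, ENNReal.ofReal_eq_zero, not_le]
  exact Real.exp_pos _

theorem pvsW_succ (a : ℝ≥0∞) (n : ℕ) : pvsW a (n + 1) * ((n + 1 : ℕ) : ℝ≥0∞) = pvsW a n := by
  unfold pvsW
  rw [Nat.factorial_succ, Nat.cast_mul, ENNReal.mul_inv (Or.inr (ENNReal.natCast_ne_top _)) (Or.inl (ENNReal.natCast_ne_top _)), mul_assoc,
    mul_comm (((n + 1 : ℕ) : ℝ≥0∞))⁻¹, mul_assoc, ENNReal.inv_mul_cancel (by simp) (ENNReal.natCast_ne_top _), mul_one]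

theorem pvs_lintegral (m : Measure E) {Φ : Conf E → ℝ≥0∞} (hΦ : Measurable Φ) :
    ∫⁻ η, Φ η ∂pppFin m = ∑' n, pvsW (m univ) n * ∫⁻ x, Φ (Conf.ofFn x) ∂Measure.pi fun _ : Fin n => m := by
  unfold pppFin pvsBin
  rw [lintegral_sum_measure]
  refine tsum_congr fun n => ?_
  rw [lintegral_smul_measure, lintegral_map hΦ (Conf.measurable_ofFn n)]; rfl

theorem pvs_bin_le (m : Measure E) (n : ℕ) : pvsW (m univ) n • pvsBin m n ≤ pppFin m :=
  Measure.le_sum (fun n => pvsW (m univ) n • pvsBin m n) n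

theorem pvs_lintegral' (m : Measure E) [IsFiniteMeasure m] {Φ : Conf E → ℝ≥0∞} (hΦ : AEMeasurable Φ (pppFin m)) :
    ∫⁻ η, Φ η ∂pppFin m = ∑' n, pvsW (m univ) n * ∫⁻ x, Φ (Conf.ofFn x) ∂Measure.pi fun _ : Fin n => m := by
  have h1 : ∀ n, AEMeasurable Φ (pvsBin m n) := fun n =>
    (aemeasurable_smul_measure_iff (pvsW_ne_zero (measure_ne_top m _) n)).1 (hΦ.mono_measure (pvs_bin_le m n))
  unfold pppFin
  rw [lintegral_sum_measure]
  refine tsum_congr fun n => ?_
  rw [lintegral_smul_measure]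
  have := h1 n
  unfold pvsBin at this ⊢
  rw [lintegral_map' this (Conf.measurable_ofFn n).aemeasurable]; rfl

theorem pvs_apply (m : Measure E) {A : Set (Conf E)} (hA : MeasurableSet A) :
    pppFin m A = ∑' n, pvsW (m univ) n * (Measure.pi fun _ : Fin n => m) (Conf.ofFn ⁻¹' A) := by
  unfold pppFin pvsBin
  rw [Measure.sum_apply _ hA]
  refine tsum_congr fun n => ?_
  rw [Measure.smul_apply, Measure.map_apply (Conf.measurable_ofFn n) hA]; rfl

/-- a measurable property that holds for `m^n`-almost every `n`-tuple, all `n`, holds almost surely -/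
theorem pvs_ae (m : Measure E) {P : Conf E → Prop} (hP : MeasurableSet {η | P η})
    (h : ∀ n, ∀ᵐ x ∂(Measure.pi fun _ : Fin n => m), P (Conf.ofFn x)) : ∀ᵐ η ∂pppFin m, P η := by
  rw [ae_iff]
  have hc : MeasurableSet {η | ¬ P η} := hP.compl
  rw [pvs_apply m hc, ENNReal.tsum_eq_zero]
  intro n
  have := h n
  rw [ae_iff] at this
  rw [show (Conf.ofFn ⁻¹' {η | ¬ P η} : Set (Fin n → E)) = {x | ¬ P (Conf.ofFn x)} from rfl, this, mul_zero]

/-- the same for the restriction of a Poisson process to a set of finite mass -/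
theorem IsPpp.ae_restr {m : Measure E} {μ : Measure (Conf E)} (h : IsPpp m μ) {W : Set E} (hW : MeasurableSet W) (hf : m W ≠ ∞)
    {P : Conf E → Prop} (hP : MeasurableSet {η | P η})
    (hn : ∀ n, ∀ᵐ x ∂(Measure.pi fun _ : Fin n => m.restrict W), P (Conf.ofFn x)) : ∀ᵐ η ∂μ, P (Conf.restr W η) := by
  have := pvs_ae (m.restrict W) hP hn
  rw [← h.map_restr_eq hW hf] at this
  exact ae_of_ae_map (Conf.measurable_restr hW).aemeasurable this

theorem IsPpp.lintegral_restr {m : Measure E} {μ : Measure (Conf E)} (h : IsPpp m μ) {W : Set E} (hW : MeasurableSet W) (hf : m W ≠ ∞)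
    {Φ : Conf E → ℝ≥0∞} (hΦ : Measurable Φ) :
    ∫⁻ η, Φ (Conf.restr W η) ∂μ = ∑' n, pvsW (m W) n * ∫⁻ x, Φ (Conf.ofFn x) ∂Measure.pi fun _ : Fin n => m.restrict W := by
  rw [← lintegral_map hΦ (Conf.measurable_restr hW), h.map_restr_eq hW hf, pvs_lintegral _ hΦ, Measure.restrict_apply_univ]

/-! ## 3. bridge T2 in the form `FinMeas`: measurability is checked on tuples -/

omit [MeasurableSpace E] in
theorem pvs_cell_eq_ofFn (n : ℕ) (X : ℕ → E) : Conf.cell (n, X) = Conf.ofFn fun i : Fin n => X i := by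
  ext p
  simp only [Conf.cell, Conf.ofFn, mem_ofPred_eq, mem_range]
  constructor
  · rintro ⟨j, hj, rfl⟩; exact ⟨⟨j, hj⟩, rfl⟩
  · rintro ⟨i, rfl⟩; exact ⟨i, i.2, rfl⟩

/-- **T2** (with a parameter `a : α`): a function of a finite configuration which is measurable in the coordinates of the tuples is a measurable function of `η ∩ W` on `{η ∩ W finite}` -/
theorem pvs_T2 [StandardBorelSpace E] [Nonempty E] {α β : Type*} [MeasurableSpace α] [MeasurableSpace β] {W : Set E} (hW : MeasurableSet W)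
    {Φ : α × Conf E → β} (hΦ : ∀ n, Measurable fun y : α × (Fin n → E) => Φ (y.1, Conf.ofFn y.2)) :
    ∃ Ψ : α × Conf E → β, Measurable Ψ ∧ ∀ a η, (η.pts ∩ W).Finite → Ψ (a, η) = Φ (a, Conf.restr W η) := by
  obtain ⟨X, hX, hX'⟩ := pvcn_enum (E := E) hW
  let G : (α × Conf E) × ℕ → β := fun z => Φ (z.1.1, Conf.ofFn fun i : Fin z.2 => X z.1.2 i)
  have hG : Measurable G := by
    refine measurable_from_prod_countable_left fun n => ?_
    exact (hΦ n).comp (measurable_fst.prodMk (measurable_pi_lambda _ fun i => (measurable_pi_apply _).comp (hX.comp measurable_snd)))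
  refine ⟨fun z => G (z, (z.2.pts ∩ W).ncard), hG.comp (measurable_id.prodMk ((pvcn_ncard hW).comp measurable_snd)), fun a η h => ?_⟩
  change Φ (a, _) = _
  rw [hX' η h, pvs_cell_eq_ofFn]

omit [MeasurableSpace E] in
/-- a sum over a set enumerated without repetition -/
theorem pvs_tsum_cell {S : Set E} {N : ℕ} {X : ℕ → E} (hS : S = {p | ∃ j < N, p = X j}) (hN : S.ncard = N) (g : E → ℝ≥0∞) :
    ∑' p : ↥S, g p = ∑ j ∈ Finset.range N, g (X j) := by
  have hS' : S = X '' (↑(Finset.range N) : Set ℕ) := by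
    rw [hS]; ext p
    simp only [mem_ofPred_eq, mem_image, Finset.coe_range, mem_Iio]
    exact ⟨fun ⟨j, hj, h⟩ => ⟨j, hj, h.symm⟩, fun ⟨j, hj, h⟩ => ⟨j, hj, h.symm⟩⟩
  have hinj : InjOn X (↑(Finset.range N) : Set ℕ) := by
    refine injOn_of_ncard_image_eq ?_ (Finset.finite_toSet _)
    rw [← hS', hN, ncard_coe_finset, Finset.card_range]
  subst hS'
  rw [tsum_image _ hinj]
  exact Finset.tsum_subtype' (Finset.range N) fun j => g (X j)

/-- sums over the points of `η ∩ W` are measurable on `{η ∩ W finite}` (with a parameter) -/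
theorem pvs_sum_meas [StandardBorelSpace E] [Nonempty E] {α : Type*} [MeasurableSpace α] {W : Set E} (hW : MeasurableSet W)
    {f : α × E × Conf E → ℝ≥0∞} (hf : Measurable f) :
    ∃ Ψ : α × Conf E → ℝ≥0∞, Measurable Ψ ∧ ∀ a η, (η.pts ∩ W).Finite → Ψ (a, η) = ∑' p : ↥(η.pts ∩ W), f (a, p, η) := by
  obtain ⟨X, hX, hX'⟩ := pvcn_enum (E := E) hW
  let G : (α × Conf E) × ℕ → ℝ≥0∞ := fun z => ∑ j ∈ Finset.range z.2, f (z.1.1, X z.1.2 j, z.1.2)
  have hG : Measurable G := by
    refine measurable_from_prod_countable_left fun n => ?_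
    change Measurable fun x : α × Conf E => ∑ j ∈ Finset.range n, f (x.1, X x.2 j, x.2)
    refine Finset.measurable_fun_sum (Finset.range n) fun j _ => ?_
    exact hf.comp (measurable_fst.prodMk (((measurable_pi_apply j).comp (hX.comp measurable_snd)).prodMk measurable_snd))
  refine ⟨fun z => G (z, (z.2.pts ∩ W).ncard), hG.comp (measurable_id.prodMk ((pvcn_ncard hW).comp measurable_snd)), fun a η h => ?_⟩
  have h1 := congrArg Conf.pts (hX' η h)
  exact (pvs_tsum_cell (S := η.pts ∩ W) (X := X η) h1 rfl fun p => f (a, p, η)).symm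

omit [MeasurableSpace E] in
/-- a sum over a set, cut along a partition -/
theorem pvs_tsum_partition {ι : Type*} {W : ι → Set E} (hd : Pairwise (Function.onFun Disjoint W)) (hc : ⋃ k, W k = univ) (S : Set E) (g : E → ℝ≥0∞) :
    ∑' p : ↥S, g p = ∑' k, ∑' p : ↥(S ∩ W k), g p := by
  simp only [tsum_subtype]
  rw [ENNReal.tsum_comm]
  refine tsum_congr fun x => ?_
  obtain ⟨k, hk⟩ := mem_iUnion.1 (hc ▸ mem_univ x : x ∈ ⋃ k, W k)
  rw [tsum_eq_single k]
  · by_cases hx : x ∈ S
    · rw [indicator_of_mem hx, indicator_of_mem (mem_inter hx hk)]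
    · rw [indicator_of_notMem hx, indicator_of_notMem fun h => hx h.1]
  · intro k' hk'
    exact indicator_of_notMem (fun h => (disjoint_left.1 (hd hk') h.2 hk)) _

/-- sums over all the points are measurable on the locally finite configurations -/
theorem pvs_sum_meas_LF [StandardBorelSpace E] [Nonempty E] {α ι : Type*} [MeasurableSpace α] [Countable ι] {W : ι → Set E} (hW : ∀ k, MeasurableSet (W k))
    (hd : Pairwise (Function.onFun Disjoint W)) (hc : ⋃ k, W k = univ) {f : α × E × Conf E → ℝ≥0∞} (hf : Measurable f) :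
    ∃ Ψ : α × Conf E → ℝ≥0∞, Measurable Ψ ∧ ∀ a η, (∀ k, (η.pts ∩ W k).Finite) → Ψ (a, η) = ∑' p : ↥η.pts, f (a, p, η) := by
  choose Ψ hΨ hΨ' using fun k => pvs_sum_meas (α := α) (hW k) hf
  refine ⟨fun z => ∑' k, Ψ k z, Measurable.tsum hΨ, fun a η h => ?_⟩
  change ∑' k, Ψ k (a, η) = _
  rw [pvs_tsum_partition hd hc η.pts fun p => f (a, p, η)]
  exact tsum_congr fun k => hΨ' k a η (h k)

/-! ## 4. almost sure finiteness, almost sure injectivity -/

theorem IsPpp.ae_finite [StandardBorelSpace E] {m : Measure E} {μ : Measure (Conf E)} (h : IsPpp m μ) {W : Set E} (hW : MeasurableSet W) (hf : m W ≠ ∞) :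
    ∀ᵐ η ∂μ, (η.pts ∩ W).Finite := by
  have hm : MeasurableSet {η : Conf E | η.pts.Finite} := by
    have := pvcn_fin (E := E) MeasurableSet.univ
    simpa only [inter_univ] using this
  exact h.ae_restr hW hf hm fun n => Eventually.of_forall fun x => finite_range x

theorem pvs_ae_ne [MeasurableEq E] (m : Measure E) [SigmaFinite m] [NullSingletonClass m] {n : ℕ} {i j : Fin n} (hij : i ≠ j) :
    ∀ᵐ x ∂(Measure.pi fun _ : Fin n => m), x i ≠ x j := by
  obtain _ | k := n
  · exact i.elim0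
  obtain ⟨j', rfl⟩ := Fin.exists_succAbove_eq hij.symm
  have mp := measurePreserving_piFinSuccAbove (fun _ : Fin (k + 1) => m) i
  have hT : MeasurableSet {z : E × (Fin k → E) | z.1 = z.2 j'} :=
    measurableSet_eq_fun measurable_fst ((measurable_pi_apply j').comp measurable_snd)
  have h0 : (m.prod (Measure.pi fun _ : Fin k => m)) {z : E × (Fin k → E) | z.1 = z.2 j'} = 0 := by
    rw [Measure.measure_prod_null hT]
    refine Eventually.of_forall fun a => ?_
    have := Measure.pi_hyperplane (fun _ : Fin k => m) j' a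
    simp only [Pi.zero_apply]
    rw [← this]
    congr 1
    ext y
    simp only [mem_preimage, mem_ofPred_eq]
    exact eq_comm
  rw [ae_iff]
  have := mp.measure_preimage hT.nullMeasurableSet
  rw [h0] at this
  rw [← this]
  congr 1
  ext x
  simp [MeasurableEquiv.piFinSuccAbove, Fin.insertNthEquiv, Fin.removeNth]

theorem pvs_ae_injective [MeasurableEq E] (m : Measure E) [SigmaFinite m] [NullSingletonClass m] (n : ℕ) :
    ∀ᵐ x ∂(Measure.pi fun _ : Fin n => m), Function.Injective x := by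
  have : ∀ᵐ x ∂(Measure.pi fun _ : Fin n => m), ∀ i j : Fin n, i ≠ j → x i ≠ x j := by
    rw [ae_all_iff]; intro i
    rw [ae_all_iff]; intro j
    by_cases hij : i = j
    · exact Eventually.of_forall fun x h => absurd hij h
    · filter_upwards [pvs_ae_ne m hij] with x hx _ using hx
  filter_upwards [this] with x hx i j hxy
  by_contra hij
  exact hx i j hij hxy

end Claimed.Agent.R289
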