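import Claimed.Agent.R289.Ppp.Series
import Claimed.Agent.R289.PppPv
import Claimed.Agent.R289.Ppp.Ind

/-!
# Row 289 (S0537), box PPP, file Ppp/Counts : COUNTS OF A POISSON PROCESS + THE MECKE EQUATION (one point)      (helper229; prefix `pvc_`)

On top of `Ppp/Series.lean` (helper69: `pppFin`, `pvsW a n = e^{-a}/n!`, `IsPpp.map_restr_eq`).  Generic in the mark space `E`
(standard Borel, intensity `m` without atoms = `[NullSingletonClass m]`), `h : IsPpp m μ`, `B` measurable with `m B ≠ ∞`.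
* **counts**: `pvc_lintegral_ncard : ∫⁻ f (#(η ∩ B)) dμ = Σ_n e^{-a} a^n / n! · f n` (`a = m B`), `pvc_ncard_eq` (point probabilities),
  `pvc_desc_moment` (factorial moments `= a^k`), `pvc_mean`, `pvc_sq_moment`, `pvc_gen` (generating function), `pvc_tail : P(N ≥ k) ≤ a^k/k!`;
  weights: `pvc_w_sum`, `pvc_w_pow`, `pvc_w_desc`.
* **Mecke**: `pvc_mecke_ser` (finite intensity, series law, index shift), `pvc_mecke` :
  `∫⁻ Σ_{p ∈ η ∩ B} f (p, η) dμ = ∫⁻_{p ∈ B} ∫⁻ f (p, η ∪ {p}) dμ dm`  (`f` sees the WHOLE configuration; proof by `IsPpp.splice`), `pvc_campbell`;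
  sigma-finite intensity, ANY measurable `B`: `pvc_mecke_sf`, `pvc_campbell_sf`; frozen process: `pvc_mecke_pv`, instance `pvc_int_null`, `pvc_int_sf`.
* **tails**: `pvc_markov_up/low`, `pvc_chernoff_up : P(N ≥ k) ≤ exp (a (e^t - 1) - t k)`, `pvc_chernoff_low : P(N ≤ k) ≤ exp (a (e^{-t} - 1) + t k)`,
  `pvc_tail_up : P(N ≥ k) ≤ exp (2 A - k)` (`a ≤ A`), `pvc_tail_low : P(N ≤ k) ≤ exp (k - A / 2)` (`A ≤ a`).
* **joint law** (on `Ppp/Ind.lean` of helper256): `pvc_reads_ncard`, `pvc_iIndep`, `pvc_joint`.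
* **real moments**: `pvc_integrable`, `pvc_integrable_sq`, `pvc_integral_mean`, `pvc_integral_sq`, `pvc_variance`, `pvc_chebyshev`.
-/

set_option autoImplicit false
set_option linter.unusedSectionVars false
set_option linter.style.haveILetI false

namespace Claimed.Agent.R289

open MeasureTheory ProbabilityTheory Set Filter Topology
open scoped ENNReal NNReal Nat

variable {E : Type*} [MeasurableSpace E]

instance pvc_prob (m : Measure E) [IsFiniteMeasure m] : IsProbabilityMeasure (pppFin m) := (pvs_isPpp m).prob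

/-! ## 1. counts -/

theorem pvc_ncard_ofFn {n : ℕ} {x : Fin n → E} (hx : Function.Injective x) : (Conf.ofFn x).pts.ncard = n := by
  unfold Conf.ofFn
  rw [← image_univ, ncard_image_of_injective _ hx, ncard_univ, Nat.card_eq_fintype_card, Fintype.card_fin]

theorem pvc_finite_ofFn {n : ℕ} (x : Fin n → E) : (Conf.ofFn x).pts.Finite := finite_range x

/-! ## 3. counts -/

theorem pvc_meas_ncard [StandardBorelSpace E] : Measurable fun η : Conf E => η.pts.ncard := by
  have := pvcn_ncard (E := E) MeasurableSet.univ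
  simpa only [inter_univ] using this

theorem pvc_meas_finite [StandardBorelSpace E] : MeasurableSet {η : Conf E | η.pts.Finite} := by
  have := pvcn_fin (E := E) MeasurableSet.univ
  simpa only [inter_univ] using this

/-- the configurations of the series law are finite -/
theorem pvc_ser_finite [StandardBorelSpace E] (m : Measure E) : ∀ᵐ η ∂(pppFin m), η.pts.Finite := by
  rw [ae_iff]
  have e : {η : Conf E | ¬ η.pts.Finite} = {η : Conf E | η.pts.Finite}ᶜ := rfl
  rw [e, pvs_apply m pvc_meas_finite.compl]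
  have : ∀ n : ℕ, (Conf.ofFn : (Fin n → E) → Conf E) ⁻¹' {η : Conf E | η.pts.Finite}ᶜ = ∅ := by
    intro n
    ext x
    simp only [mem_preimage, mem_compl_iff, mem_ofPred_eq, mem_empty_iff_false, iff_false, not_not]
    exact pvc_finite_ofFn x
  simp [this]

theorem pvc_pi_univ (m : Measure E) [SigmaFinite m] (n : ℕ) : (Measure.pi fun _ : Fin n => m) univ = (m univ) ^ n := by
  rw [Measure.pi_univ, Finset.prod_const, Finset.card_univ, Fintype.card_fin]

theorem pvc_ser_lintegral_ncard [StandardBorelSpace E] (m : Measure E) [IsFiniteMeasure m] [NullSingletonClass m] (f : ℕ → ℝ≥0∞) :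
    ∫⁻ η, f η.pts.ncard ∂(pppFin m) = ∑' n : ℕ, pvsW (m univ) n * (m univ) ^ n * f n := by
  have hf : Measurable fun η : Conf E => f η.pts.ncard := (measurable_of_countable f).comp pvc_meas_ncard
  rw [pvs_lintegral m hf]
  refine tsum_congr fun n => ?_
  have : ∫⁻ x, f (Conf.ofFn x).pts.ncard ∂(Measure.pi fun _ : Fin n => m) = ∫⁻ _, f n ∂(Measure.pi fun _ : Fin n => m) := by
    refine lintegral_congr_ae ?_
    filter_upwards [pvs_ae_injective m n] with x hx
    rw [pvc_ncard_ofFn hx]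
  rw [this, lintegral_const, pvc_pi_univ]
  ring

/-- **the number of points in `B` is Poisson of parameter `m B`** (integral form) -/
theorem pvc_lintegral_ncard [StandardBorelSpace E] {m : Measure E} {μ : Measure (Conf E)} [NullSingletonClass m] (h : IsPpp m μ) {B : Set E}
    (hB : MeasurableSet B) (hm : m B ≠ ∞) (f : ℕ → ℝ≥0∞) :
    ∫⁻ η, f (η.pts ∩ B).ncard ∂μ = ∑' n : ℕ, pvsW (m B) n * (m B) ^ n * f n := by
  haveI : IsFiniteMeasure (m.restrict B) := ⟨by rw [Measure.restrict_apply_univ]; exact hm.lt_top⟩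
  have hf : Measurable fun η : Conf E => f η.pts.ncard := (measurable_of_countable f).comp pvc_meas_ncard
  have h1 := pvc_ser_lintegral_ncard (m.restrict B) f
  rw [← h.map_restr_eq hB hm, lintegral_map hf (Conf.measurable_restr hB), Measure.restrict_apply_univ] at h1
  exact h1

/-- point probabilities -/
theorem pvc_ncard_eq [StandardBorelSpace E] {m : Measure E} {μ : Measure (Conf E)} [NullSingletonClass m] (h : IsPpp m μ) {B : Set E}
    (hB : MeasurableSet B) (hm : m B ≠ ∞) (n : ℕ) : μ {η | (η.pts ∩ B).ncard = n} = pvsW (m B) n * (m B) ^ n := by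
  have h1 := pvc_lintegral_ncard h hB hm (fun k => if k = n then 1 else 0)
  have hS : MeasurableSet {η : Conf E | (η.pts ∩ B).ncard = n} := (pvcn_ncard hB) (measurableSet_singleton n)
  have e : (fun η : Conf E => (if (η.pts ∩ B).ncard = n then 1 else 0 : ℝ≥0∞)) = indicator {η : Conf E | (η.pts ∩ B).ncard = n} 1 := by
    funext η
    simp [indicator]
  rw [e, lintegral_indicator_one hS, tsum_eq_single n (fun k hk => by simp [hk])] at h1
  simpa using h1

/-! ### the Poisson weights -/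

theorem pvc_w_sum {a : ℝ≥0∞} (ha : a ≠ ∞) : ∑' n : ℕ, pvsW a n * a ^ n = 1 := by
  have : ∀ n : ℕ, pvsW a n * a ^ n = expNeg a * (a ^ n * ((n ! : ℕ) : ℝ≥0∞)⁻¹) := fun n => by unfold pvsW; ring
  simp_rw [this]
  rw [ENNReal.tsum_mul_left, pvs_tsum_exp _ ha]
  have := pvs_expNeg_mul_exp 0 a ha
  rwa [zero_add, expNeg_zero] at this

/-- generating function -/
theorem pvc_w_pow {a z : ℝ≥0∞} (ha : a ≠ ∞) (hz : z ≠ ∞) : ∑' n : ℕ, pvsW a n * a ^ n * z ^ n = expNeg a * ENNReal.ofReal (Real.exp (a * z).toReal) := by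
  have : ∀ n : ℕ, pvsW a n * a ^ n * z ^ n = expNeg a * ((a * z) ^ n * ((n ! : ℕ) : ℝ≥0∞)⁻¹) := fun n => by unfold pvsW; rw [mul_pow]; ring
  simp_rw [this]
  rw [ENNReal.tsum_mul_left, pvs_tsum_exp _ (ENNReal.mul_ne_top ha hz)]

/-- factorial moments -/
theorem pvc_w_desc {a : ℝ≥0∞} (ha : a ≠ ∞) (k : ℕ) : ∑' n : ℕ, pvsW a n * a ^ n * (n.descFactorial k : ℝ≥0∞) = a ^ k := by
  have hs := Summable.sum_add_tsum_nat_add' (f := fun n : ℕ => pvsW a n * a ^ n * (n.descFactorial k : ℝ≥0∞)) (k := k) ENNReal.summable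
  rw [← hs]
  have h0 : ∑ n ∈ Finset.range k, pvsW a n * a ^ n * (n.descFactorial k : ℝ≥0∞) = 0 := by
    refine Finset.sum_eq_zero fun n hn => ?_
    rw [Nat.descFactorial_of_lt (Finset.mem_range.1 hn)]
    simp
  have h1 : ∀ j : ℕ, pvsW a (j + k) * a ^ (j + k) * ((j + k).descFactorial k : ℝ≥0∞) = a ^ k * (pvsW a j * a ^ j) := by
    intro j
    have e : ((j + k) ! : ℕ) = j ! * (j + k).descFactorial k := by
      have := Nat.factorial_mul_descFactorial (Nat.le_add_left k j)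
      rw [Nat.add_sub_cancel] at this
      exact this.symm
    have hd : ((j + k).descFactorial k : ℝ≥0∞) ≠ 0 := by
      have := Nat.descFactorial_pos (n := j + k) (k := k) |>.2 (Nat.le_add_left k j)
      exact_mod_cast this.ne'
    have hj : ((j ! : ℕ) : ℝ≥0∞) ≠ 0 := by exact_mod_cast (Nat.factorial_pos j).ne'
    unfold pvsW
    rw [e, Nat.cast_mul, ENNReal.mul_inv (Or.inl hj) (Or.inl (ENNReal.natCast_ne_top _)), pow_add]
    have c : (((j + k).descFactorial k : ℕ) : ℝ≥0∞)⁻¹ * ((j + k).descFactorial k : ℝ≥0∞) = 1 :=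
      ENNReal.inv_mul_cancel hd (ENNReal.natCast_ne_top _)
    calc expNeg a * (((j ! : ℕ) : ℝ≥0∞)⁻¹ * (((j + k).descFactorial k : ℕ) : ℝ≥0∞)⁻¹) * (a ^ j * a ^ k) * ((j + k).descFactorial k : ℝ≥0∞)
        = a ^ k * (expNeg a * ((j ! : ℕ) : ℝ≥0∞)⁻¹ * a ^ j) * ((((j + k).descFactorial k : ℕ) : ℝ≥0∞)⁻¹ * ((j + k).descFactorial k : ℝ≥0∞)) := by ring
      _ = _ := by rw [c, mul_one]
  simp_rw [h0, h1]
  rw [zero_add, ENNReal.tsum_mul_left, pvc_w_sum ha, mul_one]

/-! ### moments and tails of the counts -/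

section cnt
variable [StandardBorelSpace E] {m : Measure E} {μ : Measure (Conf E)} [NullSingletonClass m]

/-- factorial moments -/
theorem pvc_desc_moment (h : IsPpp m μ) {B : Set E} (hB : MeasurableSet B) (hm : m B ≠ ∞) (k : ℕ) :
    ∫⁻ η, ((η.pts ∩ B).ncard.descFactorial k : ℝ≥0∞) ∂μ = (m B) ^ k := by
  rw [pvc_lintegral_ncard h hB hm (fun n => (n.descFactorial k : ℝ≥0∞)), pvc_w_desc hm]

/-- mean number of points (Campbell) -/
theorem pvc_mean (h : IsPpp m μ) {B : Set E} (hB : MeasurableSet B) (hm : m B ≠ ∞) : ∫⁻ η, ((η.pts ∩ B).ncard : ℝ≥0∞) ∂μ = m B := by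
  have := pvc_desc_moment h hB hm 1
  simpa using this

/-- second moment -/
theorem pvc_sq_moment (h : IsPpp m μ) {B : Set E} (hB : MeasurableSet B) (hm : m B ≠ ∞) :
    ∫⁻ η, ((η.pts ∩ B).ncard : ℝ≥0∞) ^ 2 ∂μ = m B + (m B) ^ 2 := by
  have h1 := pvc_mean h hB hm
  have h2 := pvc_desc_moment h hB hm 2
  have hN : Measurable fun η : Conf E => (((η.pts ∩ B).ncard : ℕ) : ℝ≥0∞) := (measurable_of_countable fun n : ℕ => (n : ℝ≥0∞)).comp (pvcn_ncard hB)
  rw [← h2]
  conv_rhs => rw [← h1]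
  rw [← lintegral_add_left hN]
  refine lintegral_congr fun η => ?_
  generalize (η.pts ∩ B).ncard = n
  have : n ^ 2 = n + n.descFactorial 2 := by
    cases n with
    | zero => simp
    | succ k => simp [Nat.descFactorial]; ring
  exact_mod_cast this

/-- generating function -/
theorem pvc_gen (h : IsPpp m μ) {B : Set E} (hB : MeasurableSet B) (hm : m B ≠ ∞) {z : ℝ≥0∞} (hz : z ≠ ∞) :
    ∫⁻ η, z ^ (η.pts ∩ B).ncard ∂μ = expNeg (m B) * ENNReal.ofReal (Real.exp (m B * z).toReal) := by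
  rw [pvc_lintegral_ncard h hB hm (fun n => z ^ n), pvc_w_pow hm hz]

/-- **tail of the counts**: `P(N ≥ k) ≤ (m B)^k / k!` -/
theorem pvc_tail (h : IsPpp m μ) {B : Set E} (hB : MeasurableSet B) (hm : m B ≠ ∞) (k : ℕ) :
    μ {η | k ≤ (η.pts ∩ B).ncard} ≤ (m B) ^ k * ((k ! : ℕ) : ℝ≥0∞)⁻¹ := by
  have hk0 : ((k ! : ℕ) : ℝ≥0∞) ≠ 0 := by exact_mod_cast (Nat.factorial_pos k).ne'
  have hS : MeasurableSet {η : Conf E | k ≤ (η.pts ∩ B).ncard} := (pvcn_ncard hB) (measurableSet_Ici (a := k))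
  have h1 : ((k ! : ℕ) : ℝ≥0∞) * μ {η | k ≤ (η.pts ∩ B).ncard} ≤ (m B) ^ k := by
    rw [← pvc_desc_moment h hB hm k, ← lintegral_indicator_const hS]
    refine lintegral_mono fun η => ?_
    by_cases hη : k ≤ (η.pts ∩ B).ncard
    · rw [indicator_of_mem (show η ∈ {η : Conf E | k ≤ (η.pts ∩ B).ncard} from hη)]
      have : k ! ≤ (η.pts ∩ B).ncard.descFactorial k := by
        calc k ! = k.descFactorial k := (Nat.descFactorial_self k).symm
          _ ≤ _ := Nat.descFactorial_le k hη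
      exact Nat.cast_le.2 this
    · rw [indicator_of_notMem (show η ∉ {η : Conf E | k ≤ (η.pts ∩ B).ncard} from hη)]
      exact zero_le
  calc μ {η | k ≤ (η.pts ∩ B).ncard} = ((k ! : ℕ) : ℝ≥0∞)⁻¹ * (((k ! : ℕ) : ℝ≥0∞) * μ {η | k ≤ (η.pts ∩ B).ncard}) := by
        rw [← mul_assoc, ENNReal.inv_mul_cancel hk0 (ENNReal.natCast_ne_top _), one_mul]
    _ ≤ ((k ! : ℕ) : ℝ≥0∞)⁻¹ * (m B) ^ k := mul_le_mul_of_nonneg_left h1 zero_le
    _ = _ := mul_comm _ _

end cnt

/-! ## 4. sums over the points -/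

/-- **measurable version of a sum over the points in `B`** -/
theorem pvc_sum_meas [StandardBorelSpace E] [Nonempty E] {B : Set E} (hB : MeasurableSet B) {f : E × Conf E → ℝ≥0∞} (hf : Measurable f) :
    ∃ Φ : Conf E → ℝ≥0∞, Measurable Φ ∧ ∀ η : Conf E, (η.pts ∩ B).Finite → Φ η = ∑' p : ↥(η.pts ∩ B), f (p, η) := by
  obtain ⟨X, hX, hcell⟩ := pvcn_enum hB
  refine ⟨fun η => ∑' j : ℕ, if j < (η.pts ∩ B).ncard then f (X η j, η) else 0, ?_, fun η hη => ?_⟩
  · refine Measurable.tsum fun j => ?_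
    refine Measurable.ite ?_ ?_ measurable_const
    · exact (pvcn_ncard hB) (measurableSet_Ioi (a := j))
    · exact hf.comp (((measurable_pi_apply j).comp hX).prodMk measurable_id)
  · have h1 : η.pts ∩ B = {p | ∃ j < (η.pts ∩ B).ncard, p = X η j} := congrArg Conf.pts (hcell η hη)
    rw [pvs_tsum_cell h1 rfl (fun p => f (p, η))]
    show ∑' j : ℕ, (if j < (η.pts ∩ B).ncard then f (X η j, η) else 0) = _
    rw [tsum_eq_sum (s := Finset.range (η.pts ∩ B).ncard)]
    · refine Finset.sum_congr rfl fun j hj => ?_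
      rw [if_pos (Finset.mem_range.1 hj)]
    · intro j hj
      rw [if_neg (fun hc => hj (Finset.mem_range.2 hc))]

/-! ## 5. the Mecke equation -/

/-- removing one coordinate -/
theorem pvc_ofFn_succAbove {k : ℕ} (i : Fin (k + 1)) (x : Fin (k + 1) → E) :
    Conf.ofFn x = Conf.ins (x i) (Conf.ofFn fun j => x (i.succAbove j)) := by
  ext p
  simp only [Conf.ofFn, Conf.ins, mem_range, mem_insert_iff]
  constructor
  · rintro ⟨l, rfl⟩
    rcases Fin.eq_self_or_eq_succAbove i l with h | ⟨j, h⟩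
    · exact Or.inl (by rw [h])
    · exact Or.inr ⟨j, by rw [h]⟩
  · rintro (h | ⟨j, h⟩)
    · exact ⟨i, h.symm⟩
    · exact ⟨_, h⟩

theorem pvc_meas_ins_ofFn {f : E × Conf E → ℝ≥0∞} (hf : Measurable f) (k : ℕ) :
    Measurable fun z : E × (Fin k → E) => f (z.1, Conf.ins z.1 (Conf.ofFn z.2)) := by
  refine hf.comp (measurable_fst.prodMk ?_)
  exact Conf.measurable_ins.comp (measurable_fst.prodMk ((Conf.measurable_ofFn k).comp measurable_snd))

/-- one coordinate of the `(k+1)`-point sector -/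
theorem pvc_mecke_coord (m : Measure E) [SigmaFinite m] {f : E × Conf E → ℝ≥0∞} (hf : Measurable f) {k : ℕ} (i : Fin (k + 1)) :
    ∫⁻ x, f (x i, Conf.ofFn x) ∂(Measure.pi fun _ : Fin (k + 1) => m)
      = ∫⁻ z, f (z.1, Conf.ins z.1 (Conf.ofFn z.2)) ∂(m.prod (Measure.pi fun _ : Fin k => m)) := by
  have hmp := measurePreserving_piFinSuccAbove (fun _ : Fin (k + 1) => m) i
  rw [← hmp.lintegral_comp (pvc_meas_ins_ofFn hf k)]
  refine lintegral_congr fun x => ?_
  rw [pvc_ofFn_succAbove i x]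
  rfl

/-- **Mecke equation for the series law** -/
theorem pvc_mecke_ser [StandardBorelSpace E] [Nonempty E] (m : Measure E) [IsFiniteMeasure m] [NullSingletonClass m]
    {f : E × Conf E → ℝ≥0∞} (hf : Measurable f) :
    ∫⁻ η, ∑' p : ↥(η.pts ∩ univ), f (p, η) ∂(pppFin m) = ∫⁻ p, ∫⁻ η, f (p, Conf.ins p η) ∂(pppFin m) ∂m := by
  obtain ⟨Φ, hΦ, hΦe⟩ := pvc_sum_meas MeasurableSet.univ hf
  have e1 : ∫⁻ η, ∑' p : ↥(η.pts ∩ univ), f (p, η) ∂(pppFin m) = ∫⁻ η, Φ η ∂(pppFin m) := by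
    refine lintegral_congr_ae ?_
    filter_upwards [pvc_ser_finite m] with η hη
    rw [hΦe η (by rwa [inter_univ])]
  -- the sectors
  have hsec : ∀ n : ℕ, ∫⁻ x, Φ (Conf.ofFn x) ∂(Measure.pi fun _ : Fin n => m) = ∑ i : Fin n, ∫⁻ x, f (x i, Conf.ofFn x) ∂(Measure.pi fun _ : Fin n => m) := by
    intro n
    have hm : ∀ i ∈ (Finset.univ : Finset (Fin n)), Measurable fun x : Fin n → E => f (x i, Conf.ofFn x) :=
      fun i _ => hf.comp ((measurable_pi_apply i).prodMk (Conf.measurable_ofFn n))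
    rw [← lintegral_finsetSum _ hm]
    refine lintegral_congr_ae ?_
    filter_upwards [pvs_ae_injective m n] with x hx
    rw [hΦe _ (by rw [inter_univ]; exact pvc_finite_ofFn x)]
    have : ∑' p : ↥((Conf.ofFn x).pts ∩ univ), f (p, Conf.ofFn x) = ∑' p : ↥(range x), f (p, Conf.ofFn x) := by
      rw [inter_univ]; rfl
    rw [this, tsum_range (fun p => f (p, Conf.ofFn x)) hx, tsum_fintype]
  set J : ℕ → ℝ≥0∞ := fun k => ∫⁻ z, f (z.1, Conf.ins z.1 (Conf.ofFn z.2)) ∂(m.prod (Measure.pi fun _ : Fin k => m)) with hJ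
  have hL : ∫⁻ η, Φ η ∂(pppFin m) = ∑' k : ℕ, pvsW (m univ) k * J k := by
    rw [pvs_lintegral m hΦ, tsum_eq_zero_add' ENNReal.summable, hsec 0]
    simp only [Finset.univ_eq_empty, Finset.sum_empty, mul_zero, zero_add]
    refine tsum_congr fun k => ?_
    rw [hsec (k + 1)]
    simp_rw [pvc_mecke_coord m hf]
    rw [Finset.sum_const, Finset.card_univ, Fintype.card_fin, nsmul_eq_mul, ← mul_assoc, pvsW_succ]
  have hR : ∫⁻ p, ∫⁻ η, f (p, Conf.ins p η) ∂(pppFin m) ∂m = ∑' k : ℕ, pvsW (m univ) k * J k := by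
    have h1 : ∀ p : E, ∫⁻ η, f (p, Conf.ins p η) ∂(pppFin m)
        = ∑' k : ℕ, pvsW (m univ) k * ∫⁻ y, f (p, Conf.ins p (Conf.ofFn y)) ∂(Measure.pi fun _ : Fin k => m) := by
      intro p
      exact pvs_lintegral m (hf.comp (measurable_const.prodMk (Conf.measurable_ins.comp (measurable_const.prodMk measurable_id))))
    simp_rw [h1]
    have hin : ∀ k : ℕ, Measurable fun p : E => ∫⁻ y, f (p, Conf.ins p (Conf.ofFn y)) ∂(Measure.pi fun _ : Fin k => m) :=
      fun k => (pvc_meas_ins_ofFn hf k).lintegral_prod_right'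
    rw [lintegral_tsum fun k => ((hin k).const_mul _).aemeasurable]
    refine tsum_congr fun k => ?_
    rw [lintegral_const_mul _ (hin k), hJ]
    simp only
    rw [lintegral_prod _ (pvc_meas_ins_ofFn hf k).aemeasurable]
  rw [e1, hL, hR]

/-! ## §6 the Mecke equation for a general Poisson process (via `IsPpp.splice`) -/

theorem pvc_tsum_congr_set {S S' : Set E} (h : S = S') (g : E → ℝ≥0∞) : ∑' p : S, g p = ∑' p : S', g p := by
  subst h; rfl

/-- the spliced configuration -/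
def pvcT (B : Set E) (x : Conf E × Conf E) : Conf E := Conf.union (Conf.restr B x.1) (Conf.restr Bᶜ x.2)

theorem pvc_eqns_cite2 : True := by
  have := @pvcT.eq_1.{0}
  trivial

theorem pvc_meas_T {B : Set E} (hB : MeasurableSet B) : Measurable (pvcT B) :=
  Conf.measurable_union.comp (((Conf.measurable_restr hB).comp measurable_fst).prodMk ((Conf.measurable_restr hB.compl).comp measurable_snd))

theorem pvc_T_inter (B : Set E) (x : Conf E × Conf E) : (pvcT B x).pts ∩ B = (Conf.restr B x.1).pts ∩ univ := by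
  ext p
  simp only [pvcT, Conf.union, Conf.restr, mem_inter_iff, mem_union, mem_compl_iff, mem_univ, and_true]
  tauto

theorem pvc_ins_union (p : E) (ξ ζ : Conf E) : Conf.union (Conf.ins p ξ) ζ = Conf.ins p (Conf.union ξ ζ) := by
  ext q
  simp only [Conf.union, Conf.ins, mem_union, mem_insert_iff]
  tauto

/-- **MECKE EQUATION**, points in a set `B` of finite intensity; `f` sees the whole configuration -/
theorem pvc_mecke [StandardBorelSpace E] [Nonempty E] {m : Measure E} {μ : Measure (Conf E)} [NullSingletonClass m] (h : IsPpp m μ)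
    {B : Set E} (hB : MeasurableSet B) (hm : m B ≠ ∞) {f : E × Conf E → ℝ≥0∞} (hf : Measurable f) :
    ∫⁻ η, ∑' p : ↥(η.pts ∩ B), f (p, η) ∂μ = ∫⁻ p in B, ∫⁻ η, f (p, Conf.ins p η) ∂μ ∂m := by
  haveI := h.prob
  haveI : IsFiniteMeasure (m.restrict B) := ⟨by rw [Measure.restrict_apply_univ]; exact hm.lt_top⟩
  have hT := pvc_meas_T hB
  have hsp : (μ.prod μ).map (pvcT B) = μ := h.splice hB
  obtain ⟨Φ, hΦ, hΦe⟩ := pvc_sum_meas hB hf
  set F : E × (Conf E × Conf E) → ℝ≥0∞ := fun w => f (w.1, Conf.ins w.1 (pvcT B w.2)) with hFd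
  have hF : Measurable F := hf.comp (measurable_fst.prodMk (Conf.measurable_ins.comp (measurable_fst.prodMk (hT.comp measurable_snd))))
  -- step 1-3
  have s1 : ∫⁻ η, ∑' p : ↥(η.pts ∩ B), f (p, η) ∂μ = ∫⁻ x2, ∫⁻ x1, Φ (pvcT B (x1, x2)) ∂μ ∂μ := by
    have a1 : ∫⁻ η, ∑' p : ↥(η.pts ∩ B), f (p, η) ∂μ = ∫⁻ η, Φ η ∂μ := by
      refine lintegral_congr_ae ?_
      filter_upwards [h.ae_finite hB hm] with η hη
      rw [hΦe η hη]
    rw [a1]
    conv_lhs => rw [← hsp]
    have hc : Measurable fun a : Conf E × Conf E => Φ (pvcT B a) := hΦ.comp hT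
    rw [lintegral_map hΦ hT, lintegral_prod_symm _ hc.aemeasurable]
  -- step 4
  have s4 : ∀ x2 : Conf E, ∫⁻ x1, Φ (pvcT B (x1, x2)) ∂μ = ∫⁻ p, ∫⁻ x1, F (p, (x1, x2)) ∂μ ∂(m.restrict B) := by
    intro x2
    set g : E × Conf E → ℝ≥0∞ := fun z => f (z.1, Conf.union z.2 (Conf.restr Bᶜ x2)) with hg
    have hgm : Measurable g := hf.comp (measurable_fst.prodMk (Conf.measurable_union.comp (measurable_snd.prodMk measurable_const)))
    obtain ⟨Ψ, hΨ, hΨe⟩ := pvc_sum_meas MeasurableSet.univ hgm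
    have b1 : ∫⁻ x1, Φ (pvcT B (x1, x2)) ∂μ = ∫⁻ x1, Ψ (Conf.restr B x1) ∂μ := by
      refine lintegral_congr_ae ?_
      filter_upwards [h.ae_finite hB hm] with x1 hx1
      have hfin : ((Conf.restr B x1).pts ∩ univ).Finite := by rw [inter_univ]; exact hx1
      rw [hΦe _ (by rw [pvc_T_inter]; exact hfin), hΨe _ hfin,
        pvc_tsum_congr_set (pvc_T_inter B (x1, x2)) (fun p => f (p, pvcT B (x1, x2)))]
      rfl
    have b2 : ∫⁻ x1, Ψ (Conf.restr B x1) ∂μ = ∫⁻ ξ, ∑' p : ↥(ξ.pts ∩ univ), g (p, ξ) ∂(pppFin (m.restrict B)) := by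
      rw [← lintegral_map hΨ (Conf.measurable_restr hB), h.map_restr_eq hB hm]
      refine lintegral_congr_ae ?_
      filter_upwards [pvc_ser_finite (m.restrict B)] with ξ hξ
      rw [hΨe ξ (by rwa [inter_univ])]
    rw [b1, b2, pvc_mecke_ser (m.restrict B) hgm]
    refine lintegral_congr fun p => ?_
    have hgp : Measurable fun ξ : Conf E => g (p, Conf.ins p ξ) :=
      hgm.comp (measurable_const.prodMk (Conf.measurable_ins.comp (measurable_const.prodMk measurable_id)))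
    rw [← h.map_restr_eq hB hm, lintegral_map hgp (Conf.measurable_restr hB)]
    refine lintegral_congr fun x1 => ?_
    show f (p, Conf.union (Conf.ins p (Conf.restr B x1)) (Conf.restr Bᶜ x2)) = f (p, Conf.ins p (pvcT B (x1, x2)))
    rw [pvc_ins_union]
    rfl
  -- step 5
  have s5 : ∀ p : E, ∫⁻ η, f (p, Conf.ins p η) ∂μ = ∫⁻ x2, ∫⁻ x1, F (p, (x1, x2)) ∂μ ∂μ := by
    intro p
    have hp : Measurable fun η : Conf E => f (p, Conf.ins p η) :=
      hf.comp (measurable_const.prodMk (Conf.measurable_ins.comp (measurable_const.prodMk measurable_id)))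
    conv_lhs => rw [← hsp]
    have hc : Measurable fun a : Conf E × Conf E => f (p, Conf.ins p (pvcT B a)) := hp.comp hT
    rw [lintegral_map hp hT, lintegral_prod_symm _ hc.aemeasurable]
  simp_rw [s1, s4, s5]
  refine lintegral_lintegral_swap ?_
  have hG : Measurable fun w : (Conf E × E) × Conf E => F (w.1.2, (w.2, w.1.1)) :=
    hF.comp ((measurable_snd.comp measurable_fst).prodMk (measurable_snd.prodMk (measurable_fst.comp measurable_fst)))
  exact hG.lintegral_prod_right'.aemeasurable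

/-- **Campbell formula** -/
theorem pvc_campbell [StandardBorelSpace E] [Nonempty E] {m : Measure E} {μ : Measure (Conf E)} [NullSingletonClass m] (h : IsPpp m μ)
    {B : Set E} (hB : MeasurableSet B) (hm : m B ≠ ∞) {g : E → ℝ≥0∞} (hg : Measurable g) :
    ∫⁻ η, ∑' p : ↥(η.pts ∩ B), g p ∂μ = ∫⁻ p in B, g p ∂m := by
  haveI := h.prob
  have := pvc_mecke h hB hm (f := fun z => g z.1) (hg.comp measurable_fst)
  simpa using this

/-! ## 7. Chernoff bounds, variance, Chebyshev -/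

section chern
variable [StandardBorelSpace E] {m : Measure E} {μ : Measure (Conf E)} [NullSingletonClass m]

theorem pvc_meas_le (B : Set E) (hB : MeasurableSet B) (k : ℕ) : MeasurableSet {η : Conf E | k ≤ (η.pts ∩ B).ncard} :=
  (pvcn_ncard hB) (measurableSet_Ici (a := k))

theorem pvc_meas_ge (B : Set E) (hB : MeasurableSet B) (k : ℕ) : MeasurableSet {η : Conf E | (η.pts ∩ B).ncard ≤ k} :=
  (pvcn_ncard hB) (measurableSet_Iic (a := k))

/-- Markov for the generating function, upper tail (`z ≥ 1`) -/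
theorem pvc_markov_up (h : IsPpp m μ) {B : Set E} (hB : MeasurableSet B) (hm : m B ≠ ∞) {z : ℝ≥0∞} (hz1 : 1 ≤ z) (hz : z ≠ ∞) (k : ℕ) :
    z ^ k * μ {η | k ≤ (η.pts ∩ B).ncard} ≤ expNeg (m B) * ENNReal.ofReal (Real.exp (m B * z).toReal) := by
  rw [← pvc_gen h hB hm hz, ← lintegral_indicator_const (pvc_meas_le B hB k)]
  refine lintegral_mono fun η => ?_
  by_cases hη : k ≤ (η.pts ∩ B).ncard
  · rw [indicator_of_mem (show η ∈ {η : Conf E | k ≤ (η.pts ∩ B).ncard} from hη)]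
    exact pow_le_pow_right₀ hz1 hη
  · rw [indicator_of_notMem (show η ∉ {η : Conf E | k ≤ (η.pts ∩ B).ncard} from hη)]
    exact zero_le

/-- Markov for the generating function, lower tail (`z ≤ 1`) -/
theorem pvc_markov_low (h : IsPpp m μ) {B : Set E} (hB : MeasurableSet B) (hm : m B ≠ ∞) {z : ℝ≥0∞} (hz1 : z ≤ 1) (k : ℕ) :
    z ^ k * μ {η | (η.pts ∩ B).ncard ≤ k} ≤ expNeg (m B) * ENNReal.ofReal (Real.exp (m B * z).toReal) := by
  rw [← pvc_gen h hB hm (ne_top_of_le_ne_top ENNReal.one_ne_top hz1), ← lintegral_indicator_const (pvc_meas_ge B hB k)]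
  refine lintegral_mono fun η => ?_
  by_cases hη : (η.pts ∩ B).ncard ≤ k
  · rw [indicator_of_mem (show η ∈ {η : Conf E | (η.pts ∩ B).ncard ≤ k} from hη)]
    exact pow_le_pow_of_le_one zero_le hz1 hη
  · rw [indicator_of_notMem (show η ∉ {η : Conf E | (η.pts ∩ B).ncard ≤ k} from hη)]
    exact zero_le

theorem pvc_expNeg_toReal {a : ℝ≥0∞} (ha : a ≠ ∞) : expNeg a = ENNReal.ofReal (Real.exp (-a.toReal)) := by
  unfold expNeg; rw [if_neg ha]

/-- from `z^k P ≤ e^{-a} e^{a z}` with `z = e^s` to the exponential form -/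
theorem pvc_exp_form {a P : ℝ≥0∞} (ha : a ≠ ∞) (s : ℝ) (k : ℕ)
    (hP : (ENNReal.ofReal (Real.exp s)) ^ k * P ≤ expNeg a * ENNReal.ofReal (Real.exp (a * ENNReal.ofReal (Real.exp s)).toReal)) :
    P ≤ ENNReal.ofReal (Real.exp (a.toReal * (Real.exp s - 1) - s * k)) := by
  have e1 : (ENNReal.ofReal (Real.exp s)) ^ k = ENNReal.ofReal (Real.exp (s * k)) := by
    rw [← ENNReal.ofReal_pow (Real.exp_pos s).le, ← Real.exp_nat_mul, mul_comm]
  have e2 : (a * ENNReal.ofReal (Real.exp s)).toReal = a.toReal * Real.exp s := by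
    rw [ENNReal.toReal_mul, ENNReal.toReal_ofReal (Real.exp_pos s).le]
  rw [e1, e2, pvc_expNeg_toReal ha, ← ENNReal.ofReal_mul (Real.exp_pos _).le, ← Real.exp_add] at hP
  have h0 : ENNReal.ofReal (Real.exp (s * k)) ≠ 0 := by
    rw [Ne, ENNReal.ofReal_eq_zero, not_le]; exact Real.exp_pos _
  calc P = (ENNReal.ofReal (Real.exp (s * k)))⁻¹ * (ENNReal.ofReal (Real.exp (s * k)) * P) := by
        rw [← mul_assoc, ENNReal.inv_mul_cancel h0 ENNReal.ofReal_ne_top, one_mul]
    _ ≤ (ENNReal.ofReal (Real.exp (s * k)))⁻¹ * ENNReal.ofReal (Real.exp (-a.toReal + a.toReal * Real.exp s)) :=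
        mul_le_mul_of_nonneg_left hP zero_le
    _ = ENNReal.ofReal (Real.exp (a.toReal * (Real.exp s - 1) - s * k)) := by
        rw [← ENNReal.ofReal_inv_of_pos (Real.exp_pos _), ← Real.exp_neg, ← ENNReal.ofReal_mul (Real.exp_pos _).le, ← Real.exp_add]
        congr 2; ring

/-- **Chernoff, upper tail**: `P(N ≥ k) ≤ exp (a (e^t - 1) - t k)`, `t ≥ 0` -/
theorem pvc_chernoff_up (h : IsPpp m μ) {B : Set E} (hB : MeasurableSet B) (hm : m B ≠ ∞) {t : ℝ} (ht : 0 ≤ t) (k : ℕ) :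
    μ {η | k ≤ (η.pts ∩ B).ncard} ≤ ENNReal.ofReal (Real.exp ((m B).toReal * (Real.exp t - 1) - t * k)) := by
  refine pvc_exp_form hm t k (pvc_markov_up h hB hm ?_ ENNReal.ofReal_ne_top k)
  rw [← ENNReal.ofReal_one]
  exact ENNReal.ofReal_le_ofReal (Real.one_le_exp ht)

/-- **Chernoff, lower tail**: `P(N ≤ k) ≤ exp (a (e^{-t} - 1) + t k)`, `t ≥ 0` -/
theorem pvc_chernoff_low (h : IsPpp m μ) {B : Set E} (hB : MeasurableSet B) (hm : m B ≠ ∞) {t : ℝ} (ht : 0 ≤ t) (k : ℕ) :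
    μ {η | (η.pts ∩ B).ncard ≤ k} ≤ ENNReal.ofReal (Real.exp ((m B).toReal * (Real.exp (-t) - 1) + t * k)) := by
  have := pvc_exp_form hm (-t) k (pvc_markov_low h hB hm (z := ENNReal.ofReal (Real.exp (-t))) ?_ k)
  · refine this.trans_eq ?_
    congr 2; ring
  rw [← ENNReal.ofReal_one]
  exact ENNReal.ofReal_le_ofReal (Real.exp_le_one_iff.2 (by linarith))

/-- handy upper tail: `P(N ≥ k) ≤ exp (2 A - k)` as soon as `m B ≤ A` -/
theorem pvc_tail_up (h : IsPpp m μ) {B : Set E} (hB : MeasurableSet B) {A : ℝ} (hA0 : 0 ≤ A) (hA : m B ≤ ENNReal.ofReal A) (k : ℕ) :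
    μ {η | k ≤ (η.pts ∩ B).ncard} ≤ ENNReal.ofReal (Real.exp (2 * A - k)) := by
  have hm : m B ≠ ∞ := ne_top_of_le_ne_top ENNReal.ofReal_ne_top hA
  refine (pvc_chernoff_up h hB hm zero_le_one k).trans (ENNReal.ofReal_le_ofReal (Real.exp_le_exp.2 ?_))
  have h0 : 0 ≤ (m B).toReal := ENNReal.toReal_nonneg
  have hA' : (m B).toReal ≤ A := by
    have := ENNReal.toReal_mono ENNReal.ofReal_ne_top hA
    rwa [ENNReal.toReal_ofReal hA0] at this
  have he : Real.exp 1 - 1 ≤ 2 := by have := Real.exp_one_lt_d9; linarith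
  nlinarith

/-- handy lower tail: `P(N ≤ k) ≤ exp (k - A / 2)` as soon as `A ≤ m B < ∞` -/
theorem pvc_tail_low (h : IsPpp m μ) {B : Set E} (hB : MeasurableSet B) (hm : m B ≠ ∞) {A : ℝ} (hA : ENNReal.ofReal A ≤ m B) (k : ℕ) :
    μ {η | (η.pts ∩ B).ncard ≤ k} ≤ ENNReal.ofReal (Real.exp (k - A / 2)) := by
  refine (pvc_chernoff_low h hB hm zero_le_one k).trans (ENNReal.ofReal_le_ofReal (Real.exp_le_exp.2 ?_))
  have hA' : A ≤ (m B).toReal := (ENNReal.ofReal_le_iff_le_toReal hm).1 hA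
  have h0 : 0 ≤ (m B).toReal := ENNReal.toReal_nonneg
  have he : Real.exp (-1) - 1 ≤ -(1 / 2) := by
    have h2 : (2 : ℝ) ≤ Real.exp 1 := by have := Real.add_one_le_exp (1 : ℝ); linarith
    rw [Real.exp_neg]
    have : (Real.exp 1)⁻¹ ≤ 2⁻¹ := inv_anti₀ (by norm_num) h2
    linarith
  nlinarith

/-! ### real valued moments -/

theorem pvc_meas_cast {B : Set E} (hB : MeasurableSet B) : Measurable fun η : Conf E => (((η.pts ∩ B).ncard : ℕ) : ℝ) :=
  (measurable_of_countable fun n : ℕ => (n : ℝ)).comp (pvcn_ncard hB)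

/-- every function of the count with finite Poisson sum is integrable; here: powers -/
theorem pvc_integrable_sq (h : IsPpp m μ) {B : Set E} (hB : MeasurableSet B) (hm : m B ≠ ∞) :
    Integrable (fun η : Conf E => (((η.pts ∩ B).ncard : ℕ) : ℝ) ^ 2) μ := by
  refine ⟨((pvc_meas_cast hB).pow_const 2).aestronglyMeasurable, ?_⟩
  rw [hasFiniteIntegral_iff_enorm]
  have : ∀ η : Conf E, ‖(((η.pts ∩ B).ncard : ℕ) : ℝ) ^ 2‖ₑ = (((η.pts ∩ B).ncard : ℕ) : ℝ≥0∞) ^ 2 := by
    intro η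
    rw [Real.enorm_eq_ofReal (by positivity), ENNReal.ofReal_pow (by positivity), ENNReal.ofReal_natCast]
  simp_rw [this]
  rw [pvc_sq_moment h hB hm]
  exact (ENNReal.add_ne_top.2 ⟨hm, ENNReal.pow_ne_top hm⟩).lt_top

theorem pvc_integrable (h : IsPpp m μ) {B : Set E} (hB : MeasurableSet B) (hm : m B ≠ ∞) :
    Integrable (fun η : Conf E => (((η.pts ∩ B).ncard : ℕ) : ℝ)) μ := by
  refine ⟨(pvc_meas_cast hB).aestronglyMeasurable, ?_⟩
  rw [hasFiniteIntegral_iff_enorm]
  have : ∀ η : Conf E, ‖(((η.pts ∩ B).ncard : ℕ) : ℝ)‖ₑ = (((η.pts ∩ B).ncard : ℕ) : ℝ≥0∞) := by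
    intro η
    rw [Real.enorm_eq_ofReal (by positivity), ENNReal.ofReal_natCast]
  simp_rw [this]
  rw [pvc_mean h hB hm]
  exact hm.lt_top

theorem pvc_integral_mean (h : IsPpp m μ) {B : Set E} (hB : MeasurableSet B) (hm : m B ≠ ∞) :
    ∫ η, (((η.pts ∩ B).ncard : ℕ) : ℝ) ∂μ = (m B).toReal := by
  rw [integral_eq_lintegral_of_nonneg_ae (Eventually.of_forall fun η => by positivity) (pvc_meas_cast hB).aestronglyMeasurable]
  simp_rw [ENNReal.ofReal_natCast]
  rw [pvc_mean h hB hm]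

theorem pvc_integral_sq (h : IsPpp m μ) {B : Set E} (hB : MeasurableSet B) (hm : m B ≠ ∞) :
    ∫ η, (((η.pts ∩ B).ncard : ℕ) : ℝ) ^ 2 ∂μ = (m B).toReal + (m B).toReal ^ 2 := by
  rw [integral_eq_lintegral_of_nonneg_ae (Eventually.of_forall fun η => by positivity) ((pvc_meas_cast hB).pow_const 2).aestronglyMeasurable]
  have : ∀ η : Conf E, ENNReal.ofReal ((((η.pts ∩ B).ncard : ℕ) : ℝ) ^ 2) = (((η.pts ∩ B).ncard : ℕ) : ℝ≥0∞) ^ 2 := by
    intro η
    rw [ENNReal.ofReal_pow (by positivity), ENNReal.ofReal_natCast]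
  simp_rw [this]
  rw [pvc_sq_moment h hB hm, ENNReal.toReal_add hm (ENNReal.pow_ne_top hm), ENNReal.toReal_pow]

/-- **variance of the count** `= m B` -/
theorem pvc_variance (h : IsPpp m μ) {B : Set E} (hB : MeasurableSet B) (hm : m B ≠ ∞) :
    ∫ η, ((((η.pts ∩ B).ncard : ℕ) : ℝ) - (m B).toReal) ^ 2 ∂μ = (m B).toReal := by
  haveI := h.prob
  have h1 := pvc_integrable h hB hm
  have h2 := pvc_integrable_sq h hB hm
  have e : ∀ η : Conf E, ((((η.pts ∩ B).ncard : ℕ) : ℝ) - (m B).toReal) ^ 2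
      = (((η.pts ∩ B).ncard : ℕ) : ℝ) ^ 2 - (2 * (m B).toReal) * (((η.pts ∩ B).ncard : ℕ) : ℝ) + (m B).toReal ^ 2 := fun η => by ring
  simp_rw [e]
  have h3 : Integrable (fun η : Conf E => (2 * (m B).toReal) * (((η.pts ∩ B).ncard : ℕ) : ℝ)) μ := h1.const_mul _
  have h4 : Integrable (fun η : Conf E => (((η.pts ∩ B).ncard : ℕ) : ℝ) ^ 2 - (2 * (m B).toReal) * (((η.pts ∩ B).ncard : ℕ) : ℝ)) μ := h2.sub h3
  rw [integral_add h4 (integrable_const _), integral_sub h2 h3, integral_const_mul,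
    pvc_integral_sq h hB hm, pvc_integral_mean h hB hm, integral_const]
  simp
  ring

/-- **Chebyshev** for the count -/
theorem pvc_chebyshev (h : IsPpp m μ) {B : Set E} (hB : MeasurableSet B) (hm : m B ≠ ∞) {s : ℝ} (hs : 0 < s) :
    μ {η | s ≤ |(((η.pts ∩ B).ncard : ℕ) : ℝ) - (m B).toReal|} ≤ ENNReal.ofReal ((m B).toReal / s ^ 2) := by
  haveI := h.prob
  have hg : Measurable fun η : Conf E => ((((η.pts ∩ B).ncard : ℕ) : ℝ) - (m B).toReal) ^ 2 := ((pvc_meas_cast hB).sub_const _).pow_const 2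
  have hi : Integrable (fun η : Conf E => ((((η.pts ∩ B).ncard : ℕ) : ℝ) - (m B).toReal) ^ 2) μ := by
    have e : (fun η : Conf E => ((((η.pts ∩ B).ncard : ℕ) : ℝ) - (m B).toReal) ^ 2)
      = fun η : Conf E => (((η.pts ∩ B).ncard : ℕ) : ℝ) ^ 2 - (2 * (m B).toReal) * (((η.pts ∩ B).ncard : ℕ) : ℝ) + (m B).toReal ^ 2 := by
      funext η; ring
    rw [e]
    exact ((pvc_integrable_sq h hB hm).sub ((pvc_integrable h hB hm).const_mul _)).add (integrable_const _)
  have h1 := mul_meas_ge_le_integral_of_nonneg (μ := μ) (Eventually.of_forall fun η => sq_nonneg _) hi (s ^ 2)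
  rw [pvc_variance h hB hm] at h1
  have hset : {η : Conf E | s ≤ |(((η.pts ∩ B).ncard : ℕ) : ℝ) - (m B).toReal|}
      = {η : Conf E | s ^ 2 ≤ ((((η.pts ∩ B).ncard : ℕ) : ℝ) - (m B).toReal) ^ 2} := by
    ext η
    simp only [mem_ofPred_eq]
    rw [← sq_abs ((((η.pts ∩ B).ncard : ℕ) : ℝ) - (m B).toReal)]
    exact (pow_le_pow_iff_left₀ hs.le (abs_nonneg _) two_ne_zero).symm
  rw [hset, ← ENNReal.ofReal_toReal (measure_ne_top μ _)]
  refine ENNReal.ofReal_le_ofReal ?_
  rw [le_div_iff₀ (by positivity), mul_comm]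
  exact h1

end chern

/-! ## 8. Mecke for a sigma-finite intensity -/

/-- **MECKE EQUATION**, sigma-finite intensity, any measurable `B` (e.g. `univ`) -/
theorem pvc_mecke_sf [StandardBorelSpace E] [Nonempty E] {m : Measure E} {μ : Measure (Conf E)} [NullSingletonClass m] [SigmaFinite m]
    (h : IsPpp m μ) {B : Set E} (hB : MeasurableSet B) {f : E × Conf E → ℝ≥0∞} (hf : Measurable f) :
    ∫⁻ η, ∑' p : ↥(η.pts ∩ B), f (p, η) ∂μ = ∫⁻ p in B, ∫⁻ η, f (p, Conf.ins p η) ∂μ ∂m := by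
  set D : ℕ → Set E := disjointed (spanningSets m) with hD
  have hDm : ∀ k, MeasurableSet (D k) := MeasurableSet.disjointed (measurableSet_spanningSets m)
  have hDd : Pairwise (Function.onFun Disjoint D) := disjoint_disjointed _
  have hDu : ⋃ k, D k = univ := by rw [hD, iUnion_disjointed, iUnion_spanningSets]
  have hDf : ∀ k, m (B ∩ D k) ≠ ∞ := fun k =>
    ne_top_of_le_ne_top (measure_spanningSets_lt_top m k).ne (measure_mono (inter_subset_right.trans (disjointed_subset _ k)))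
  have hW : ∀ k, MeasurableSet (B ∩ D k) := fun k => hB.inter (hDm k)
  have e1 : ∀ η : Conf E, ∑' p : ↥(η.pts ∩ B), f (p, η) = ∑' k, ∑' p : ↥(η.pts ∩ (B ∩ D k)), f (p, η) := by
    intro η
    rw [pvs_tsum_partition hDd hDu (η.pts ∩ B) fun p => f (p, η)]
    refine tsum_congr fun k => ?_
    exact pvc_tsum_congr_set (inter_assoc _ _ _) fun p => f (p, η)
  have hae : ∀ k, AEMeasurable (fun η : Conf E => ∑' p : ↥(η.pts ∩ (B ∩ D k)), f (p, η)) μ := by
    intro k
    obtain ⟨Φ, hΦ, hΦe⟩ := pvc_sum_meas (hW k) hf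
    refine ⟨Φ, hΦ, ?_⟩
    filter_upwards [h.ae_finite (hW k) (hDf k)] with η hη
    rw [hΦe η hη]
  simp_rw [e1]
  rw [lintegral_tsum hae]
  simp_rw [fun k => pvc_mecke h (hW k) (hDf k) hf]
  have hBu : B = ⋃ k, B ∩ D k := by rw [← inter_iUnion, hDu, inter_univ]
  conv_rhs => rw [hBu]
  rw [lintegral_iUnion hW]
  intro i j hij
  exact (hDd hij).mono inter_subset_right inter_subset_right

/-- **Campbell formula**, sigma-finite intensity -/
theorem pvc_campbell_sf [StandardBorelSpace E] [Nonempty E] {m : Measure E} {μ : Measure (Conf E)} [NullSingletonClass m] [SigmaFinite m]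
    (h : IsPpp m μ) {B : Set E} (hB : MeasurableSet B) {g : E → ℝ≥0∞} (hg : Measurable g) :
    ∫⁻ η, ∑' p : ↥(η.pts ∩ B), g p ∂μ = ∫⁻ p in B, g p ∂m := by
  haveI := h.prob
  have := pvc_mecke_sf h hB (f := fun z => g z.1) (hg.comp measurable_fst)
  simpa using this

/-! ## 9. the frozen intensity -/

instance pvc_int_null (ε : ℝ) : NullSingletonClass (pvInt ε) := ⟨fun p => by
  obtain ⟨z, b⟩ := p
  unfold pvInt
  rw [Measure.smul_apply, ← Set.singleton_prod_singleton, Measure.prod_prod, measure_singleton, zero_mul, smul_zero]⟩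

/-- (an instance of the same content lives in `Fkg.lean`: `pvf_sigmaFinite_pvInt`) -/
theorem pvc_int_sf (ε : ℝ) : SigmaFinite (pvInt ε) := by
  have : pvInt ε = (((ε⁻¹) ^ 2).toNNReal : ℝ≥0) • ((volume : Measure ℂ).prod pvCoin) := rfl
  rw [this]; infer_instance

example : StandardBorelSpace PvPt := inferInstance
example : Nonempty PvPt := inferInstance

/-- Mecke for the frozen process -/
theorem pvc_mecke_pv (ε : ℝ) {B : Set PvPt} (hB : MeasurableSet B) {f : PvPt × Conf PvPt → ℝ≥0∞} (hf : Measurable f) :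
    ∫⁻ η, ∑' p : ↥(η.pts ∩ B), f (p, η) ∂(pvP ε) = ∫⁻ p in B, ∫⁻ η, f (p, Conf.ins p η) ∂(pvP ε) ∂(pvInt ε) :=
  haveI := pvc_int_sf ε
  pvc_mecke_sf (pv_isPpp ε) hB hf

/-! ## 10. joint law of the counts on disjoint sets -/

theorem pvc_reads_ncard (B : Set E) : Conf.Reads B fun η : Conf E => (η.pts ∩ B).ncard := by
  intro η
  show ((η.pts ∩ B) ∩ B).ncard = (η.pts ∩ B).ncard
  rw [inter_assoc, inter_self]

/-- the counts on pairwise disjoint sets are independent -/
theorem pvc_iIndep [StandardBorelSpace E] {m : Measure E} {μ : Measure (Conf E)} (h : IsPpp m μ) {ι : Type*} {B : ι → Set E}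
    (hB : ∀ i, MeasurableSet (B i)) (hd : Pairwise (Function.onFun Disjoint B)) :
    iIndepFun (fun i (η : Conf E) => (η.pts ∩ B i).ncard) μ :=
  h.iIndepFun_reads hB hd (fun i => pvcn_ncard (hB i)) fun i => pvc_reads_ncard (B i)

/-- **joint law of the counts**: independent Poisson variables -/
theorem pvc_joint [StandardBorelSpace E] {m : Measure E} {μ : Measure (Conf E)} [NullSingletonClass m] (h : IsPpp m μ) {ι : Type*}
    (s : Finset ι) {B : ι → Set E} (hB : ∀ i ∈ s, MeasurableSet (B i)) (hd : (s : Set ι).PairwiseDisjoint B) (hm : ∀ i ∈ s, m (B i) ≠ ∞)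
    (n : ι → ℕ) :
    μ (⋂ i ∈ s, {η : Conf E | (η.pts ∩ B i).ncard = n i}) = ∏ i ∈ s, pvsW (m (B i)) (n i) * (m (B i)) ^ (n i) := by
  have key := h.measure_iInter_reads s hB hd (A := fun i => {η : Conf E | (η.pts ∩ B i).ncard = n i})
    (fun i hi => ((pvcn_ncard (hB i hi)) (measurableSet_singleton (n i))).nullMeasurableSet)
    (fun i _ η => by
      show ((Conf.restr (B i) η).pts ∩ B i).ncard = n i ↔ (η.pts ∩ B i).ncard = n i
      have e : ((Conf.restr (B i) η).pts ∩ B i).ncard = (η.pts ∩ B i).ncard := pvc_reads_ncard (B i) η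
      rw [e])
  rw [key]
  exact Finset.prod_congr rfl fun i hi => pvc_ncard_eq h (hB i hi) (hm i hi) (n i)

end Claimed.Agent.R289
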