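import Claimed.Agent.R289.Ppp.Series
import Claimed.Agent.R289.PppPv

/-!
# Row 289 (S0537), box PPP, file Ppp/Mecke : MECKE'S FORMULA (P5), sigma-finite, one and two points      (helper69; prefix `pvk_`)

Generic in `E` (standard Borel), `h : IsPpp m μ`, `m` sigma-finite without atoms (`[NullSingletonClass m]`), `f` measurable with values in `[0,∞]`.
* `pvk_fin` (series, index shift), `IsPpp.mecke_on` (points in a set of finite mass; `f` sees all of `η`; by SPLICE),
  **`IsPpp.mecke`** : `∫ Σ_{p ∈ η} f (p, η) dμ = ∫∫ f (p, η ∪ {p}) dμ dm`.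
* `IsPpp.mecke_of_eqOn` : the same for an integrand equal to a measurable one on a full set of configurations stable under insertion
  (`pvkLF`, `IsPpp.ae_pvkLF`, `pvkLF_ins`: local finiteness);  `IsPpp.ae_notMem`.
* **`IsPpp.mecke2`** : ordered pairs of distinct points.
* the frozen model: `pvk_pv`, `pvk_pv2`, `pvk_lintegral_pvInt`, instances `SigmaFinite (pvInt ε)`, `NullSingletonClass (pvInt ε)`.
(The finite mass form also exists as `pvc_mecke` in `Ppp/Counts.lean` (helper229); the two were typed at the same time.)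
-/

set_option autoImplicit false

namespace Claimed.Agent.R289

open MeasureTheory ProbabilityTheory Set Filter Topology
open scoped ENNReal NNReal

variable {E : Type*} [MeasurableSpace E]

/-! ## 1. finite volume -/

omit [MeasurableSpace E] in
theorem pvk_ofFn_insertNth {k : ℕ} (i : Fin (k + 1)) (x : Fin (k + 1) → E) :
    Conf.ofFn x = Conf.ins (x i) (Conf.ofFn fun j => x (i.succAbove j)) := by
  ext p
  simp only [Conf.ofFn, Conf.ins, mem_range, mem_insert_iff]
  constructor
  · rintro ⟨j, rfl⟩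
    by_cases hj : j = i
    · exact Or.inl (by rw [hj])
    · obtain ⟨j', rfl⟩ := Fin.exists_succAbove_eq hj
      exact Or.inr ⟨j', rfl⟩
  · rintro (rfl | ⟨j, rfl⟩)
    · exact ⟨i, rfl⟩
    · exact ⟨_, rfl⟩

/-- the index shift -/
theorem pvk_shift (m : Measure E) [SigmaFinite m] {f : E × Conf E → ℝ≥0∞} (hf : Measurable f) {k : ℕ} (i : Fin (k + 1)) :
    ∫⁻ x, f (x i, Conf.ofFn x) ∂(Measure.pi fun _ : Fin (k + 1) => m)
      = ∫⁻ a, ∫⁻ y, f (a, Conf.ins a (Conf.ofFn y)) ∂(Measure.pi fun _ : Fin k => m) ∂m := by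
  have mp := measurePreserving_piFinSuccAbove (fun _ : Fin (k + 1) => m) i
  have hH : Measurable fun z : E × (Fin k → E) => f (z.1, Conf.ins z.1 (Conf.ofFn z.2)) :=
    hf.comp (measurable_fst.prodMk (Conf.measurable_ins.comp (measurable_fst.prodMk ((Conf.measurable_ofFn k).comp measurable_snd))))
  rw [← lintegral_prod _ hH.aemeasurable, ← mp.lintegral_comp hH]
  refine lintegral_congr fun x => ?_
  rw [pvk_ofFn_insertNth i x]
  rfl

theorem pvk_meas_ins {f : E × Conf E → ℝ≥0∞} (hf : Measurable f) : Measurable fun z : E × Conf E => f (z.1, Conf.ins z.1 z.2) :=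
  hf.comp (measurable_fst.prodMk Conf.measurable_ins)


/-- **Mecke formula in finite volume** -/
theorem pvk_fin [StandardBorelSpace E] [Nonempty E] (m : Measure E) [IsFiniteMeasure m] [NullSingletonClass m]
    {f : E × Conf E → ℝ≥0∞} (hf : Measurable f) :
    ∫⁻ η, ∑' p : ↥η.pts, f (p, η) ∂pppFin m = ∫⁻ p, ∫⁻ η, f (p, Conf.ins p η) ∂pppFin m ∂m := by
  obtain ⟨Ψ, hΨ, hΨ'⟩ := pvs_sum_meas (E := E) (α := Unit) (W := univ) MeasurableSet.univ
    (f := fun z => f z.2) (hf.comp measurable_snd)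
  have hΨ1 : Measurable fun η => Ψ ((), η) := hΨ.comp (measurable_const.prodMk measurable_id)
  have hsum : ∀ η : Conf E, η.pts.Finite → Ψ ((), η) = ∑' p : ↥η.pts, f (p, η) := by
    intro η h
    have h1 := hΨ' () η (by rwa [inter_univ])
    rw [h1]
    have : η.pts ∩ univ = η.pts := inter_univ _
    rw [this]
  have hfin : ∀ᵐ η ∂pppFin m, η.pts.Finite := by
    have := (pvs_isPpp m).ae_finite MeasurableSet.univ (measure_ne_top m _)
    simpa only [inter_univ] using this
  have e1 : ∫⁻ η, ∑' p : ↥η.pts, f (p, η) ∂pppFin m = ∫⁻ η, Ψ ((), η) ∂pppFin m :=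
    lintegral_congr_ae (hfin.mono fun η h => (hsum η h).symm)
  rw [e1, pvs_lintegral m hΨ1]
  -- the `n`-th term
  have e2 : ∀ n : ℕ, ∫⁻ x, Ψ ((), Conf.ofFn x) ∂(Measure.pi fun _ : Fin n => m)
      = ∑ i : Fin n, ∫⁻ x, f (x i, Conf.ofFn x) ∂(Measure.pi fun _ : Fin n => m) := by
    intro n
    have hmi : ∀ i ∈ (Finset.univ : Finset (Fin n)), Measurable fun x : Fin n → E => f (x i, Conf.ofFn x) := fun i _ =>
      hf.comp ((measurable_pi_apply i).prodMk (Conf.measurable_ofFn n))
    rw [← lintegral_finsetSum _ hmi]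
    refine lintegral_congr_ae ((pvs_ae_injective m n).mono fun x hx => ?_)
    change Ψ ((), Conf.ofFn x) = _
    rw [hsum _ (finite_range x)]
    change ∑' p : ↥(range x), f (p, Conf.ofFn x) = _
    rw [tsum_range (fun p => f (p, Conf.ofFn x)) hx, tsum_fintype]
  have e4 : ∀ k : ℕ, pvsW (m univ) (k + 1) * ∫⁻ x, Ψ ((), Conf.ofFn x) ∂(Measure.pi fun _ : Fin (k + 1) => m)
      = pvsW (m univ) k * ∫⁻ a, ∫⁻ y, f (a, Conf.ins a (Conf.ofFn y)) ∂(Measure.pi fun _ : Fin k => m) ∂m := by
    intro k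
    rw [e2 (k + 1), Finset.sum_congr rfl fun i _ => pvk_shift m hf i, Finset.sum_const, Finset.card_univ, Fintype.card_fin, nsmul_eq_mul,
      ← mul_assoc, pvsW_succ]
  have e5 : pvsW (m univ) 0 * ∫⁻ x, Ψ ((), Conf.ofFn x) ∂(Measure.pi fun _ : Fin 0 => m) = 0 := by
    rw [e2 0, Finset.univ_eq_empty, Finset.sum_empty, mul_zero]
  obtain ⟨F, hF⟩ : ∃ F : ℕ → ℝ≥0∞, ∀ n, F n = pvsW (m univ) n * ∫⁻ x, Ψ ((), Conf.ofFn x) ∂(Measure.pi fun _ : Fin n => m) :=
    ⟨_, fun _ => rfl⟩
  rw [← tsum_congr hF, tsum_eq_zero_add' ENNReal.summable, hF 0, e5, zero_add, tsum_congr fun k => (hF (k + 1)).trans (e4 k)]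
  have e3 : ∀ p, ∫⁻ η, f (p, Conf.ins p η) ∂pppFin m
      = ∑' k, pvsW (m univ) k * ∫⁻ y, f (p, Conf.ins p (Conf.ofFn y)) ∂(Measure.pi fun _ : Fin k => m) := fun p =>
    pvs_lintegral m (Φ := fun η => f (p, Conf.ins p η)) ((pvk_meas_ins hf).comp (measurable_const.prodMk measurable_id))
  rw [lintegral_congr e3]
  have hm : ∀ k : ℕ, Measurable fun p => ∫⁻ y, f (p, Conf.ins p (Conf.ofFn y)) ∂(Measure.pi fun _ : Fin k => m) := fun k =>
    Measurable.lintegral_prod_right' (f := fun z : E × (Fin k → E) => f (z.1, Conf.ins z.1 (Conf.ofFn z.2)))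
      ((pvk_meas_ins hf).comp (measurable_fst.prodMk ((Conf.measurable_ofFn k).comp measurable_snd)))
  rw [lintegral_tsum fun k => ((hm k).const_mul _).aemeasurable]
  exact tsum_congr fun k => (lintegral_const_mul _ (hm k)).symm

/-! ## 2. sets of finite mass: splice -/

/-- a.e. measurability of the sums over the points in a set of finite mass -/
theorem IsPpp.sum_aemeasurable [StandardBorelSpace E] [Nonempty E] {m : Measure E} {μ : Measure (Conf E)} (h : IsPpp m μ) {W : Set E}
    (hW : MeasurableSet W) (hfin : m W ≠ ∞) {f : E × Conf E → ℝ≥0∞} (hf : Measurable f) :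
    AEMeasurable (fun η => ∑' p : ↥(η.pts ∩ W), f (p, η)) μ := by
  obtain ⟨Ψ, hΨ, hΨ'⟩ := pvs_sum_meas (E := E) (α := Unit) hW (f := fun z => f z.2) (hf.comp measurable_snd)
  exact ⟨fun η => Ψ ((), η), hΨ.comp (measurable_const.prodMk measurable_id), (h.ae_finite hW hfin).mono fun η hη => (hΨ' () η hη).symm⟩

theorem pvk_sum_aemeasurable [StandardBorelSpace E] [Nonempty E] (m : Measure E) [IsFiniteMeasure m] {f : E × Conf E → ℝ≥0∞} (hf : Measurable f) :
    AEMeasurable (fun η : Conf E => ∑' p : ↥η.pts, f (p, η)) (pppFin m) := by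
  have := (pvs_isPpp m).sum_aemeasurable MeasurableSet.univ (measure_ne_top m _) hf
  refine this.congr (Eventually.of_forall fun η => ?_)
  exact tsum_congr_set_coe (fun p => f (p, η)) (inter_univ _)

omit [MeasurableSpace E] in
theorem pvk_union_ins (p : E) (ξ ζ : Conf E) : Conf.union (Conf.ins p ξ) ζ = Conf.ins p (Conf.union ξ ζ) := by
  ext q
  simp only [Conf.union, Conf.ins, mem_union, mem_insert_iff, or_assoc]

/-- **Mecke's formula on a set of finite mass** -/
theorem IsPpp.mecke_on [StandardBorelSpace E] [Nonempty E] {m : Measure E} {μ : Measure (Conf E)} [NullSingletonClass m] (h : IsPpp m μ) {W : Set E}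
    (hW : MeasurableSet W) (hfin : m W ≠ ∞) {f : E × Conf E → ℝ≥0∞} (hf : Measurable f) :
    ∫⁻ η, ∑' p : ↥(η.pts ∩ W), f (p, η) ∂μ = ∫⁻ p in W, ∫⁻ η, f (p, Conf.ins p η) ∂μ ∂m := by
  have := h.prob
  have : IsFiniteMeasure (m.restrict W) := ⟨by rw [Measure.restrict_apply_univ]; exact hfin.lt_top⟩
  obtain ⟨S, hSdef⟩ : ∃ S : Conf E × Conf E → Conf E, ∀ x, S x = Conf.union (Conf.restr W x.1) (Conf.restr Wᶜ x.2) := ⟨_, fun _ => rfl⟩
  have hS : Measurable S := by
    have : S = fun x => Conf.union (Conf.restr W x.1) (Conf.restr Wᶜ x.2) := funext hSdef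
    rw [this]
    exact Conf.measurable_union.comp
      (((Conf.measurable_restr hW).comp measurable_fst).prodMk ((Conf.measurable_restr hW.compl).comp measurable_snd))
  have hsp : (μ.prod μ).map S = μ := by
    have : S = fun x => Conf.union (Conf.restr W x.1) (Conf.restr Wᶜ x.2) := funext hSdef
    rw [this]; exact h.splice hW
  have hmap := h.map_restr_eq hW hfin
  have hA := h.sum_aemeasurable hW hfin hf
  have e1 : ∫⁻ η, ∑' p : ↥(η.pts ∩ W), f (p, η) ∂μ = ∫⁻ ζ, ∫⁻ η, ∑' p : ↥((S (η, ζ)).pts ∩ W), f (p, S (η, ζ)) ∂μ ∂μ := by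
    have hA' : AEMeasurable (fun η => ∑' p : ↥(η.pts ∩ W), f (p, η)) ((μ.prod μ).map S) := by rwa [hsp]
    conv_lhs => rw [← hsp]
    rw [lintegral_map' hA' hS.aemeasurable]
    exact lintegral_prod_symm _ (hA'.comp_aemeasurable hS.aemeasurable)
  have e2 : ∀ ζ, ∫⁻ η, ∑' p : ↥((S (η, ζ)).pts ∩ W), f (p, S (η, ζ)) ∂μ = ∫⁻ p in W, ∫⁻ η, f (p, Conf.ins p (S (η, ζ))) ∂μ ∂m := by
    intro ζ
    obtain ⟨fζ, hfζ⟩ : ∃ fζ : E × Conf E → ℝ≥0∞, ∀ z, fζ z = f (z.1, Conf.union z.2 (Conf.restr Wᶜ ζ)) := ⟨_, fun _ => rfl⟩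
    have hfm : Measurable fζ := by
      have : fζ = fun z => f (z.1, Conf.union z.2 (Conf.restr Wᶜ ζ)) := funext hfζ
      rw [this]
      exact hf.comp (measurable_fst.prodMk (Conf.measurable_union.comp (measurable_snd.prodMk measurable_const)))
    have a1 : ∀ η, ∑' p : ↥((S (η, ζ)).pts ∩ W), f (p, S (η, ζ)) = ∑' p : ↥(Conf.restr W η).pts, fζ (p, Conf.restr W η) := by
      intro η
      have hset : (S (η, ζ)).pts ∩ W = (Conf.restr W η).pts := by
        rw [hSdef]
        ext q
        simp only [Conf.union, Conf.restr, mem_inter_iff, mem_union, mem_compl_iff]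
        tauto
      rw [tsum_congr_set_coe (fun p => f (p, S (η, ζ))) hset]
      refine tsum_congr fun p => ?_
      rw [hfζ, hSdef]
    refine (lintegral_congr a1).trans ?_
    have hG : AEMeasurable (fun ξ : Conf E => ∑' p : ↥ξ.pts, fζ (p, ξ)) (μ.map (Conf.restr W)) := by
      rw [hmap]; exact pvk_sum_aemeasurable _ hfm
    refine (lintegral_map' hG (Conf.measurable_restr hW).aemeasurable).symm.trans ?_
    rw [hmap, pvk_fin (m.restrict W) hfm]
    refine lintegral_congr fun p => ?_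
    have hm2 : Measurable fun ξ : Conf E => fζ (p, Conf.ins p ξ) := (pvk_meas_ins hfm).comp (measurable_const.prodMk measurable_id)
    rw [← hmap, lintegral_map hm2 (Conf.measurable_restr hW)]
    refine lintegral_congr fun η => ?_
    rw [hfζ, hSdef, pvk_union_ins]
  refine e1.trans ((lintegral_congr e2).trans ?_)
  have hF : Measurable fun z : (Conf E × E) × Conf E => f (z.1.2, Conf.ins z.1.2 (S (z.2, z.1.1))) :=
    (pvk_meas_ins hf).comp ((measurable_snd.comp measurable_fst).prodMk (hS.comp (measurable_snd.prodMk (measurable_fst.comp measurable_fst))))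
  have hF' : Measurable (Function.uncurry fun (ζ : Conf E) (p : E) => ∫⁻ η, f (p, Conf.ins p (S (η, ζ))) ∂μ) :=
    Measurable.lintegral_prod_right' hF
  rw [lintegral_lintegral_swap hF'.aemeasurable]
  refine lintegral_congr fun p => ?_
  have hm3 : Measurable fun η : Conf E => f (p, Conf.ins p η) := (pvk_meas_ins hf).comp (measurable_const.prodMk measurable_id)
  conv_rhs => rw [← hsp]
  rw [lintegral_map hm3 hS]
  exact (lintegral_prod_symm _ (hm3.comp hS).aemeasurable).symm

/-! ## 3. sigma-finite intensity -/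

/-- **MECKE'S FORMULA** -/
theorem IsPpp.mecke [StandardBorelSpace E] [Nonempty E] {m : Measure E} {μ : Measure (Conf E)} [SigmaFinite m] [NullSingletonClass m] (h : IsPpp m μ)
    {f : E × Conf E → ℝ≥0∞} (hf : Measurable f) :
    ∫⁻ η, ∑' p : ↥η.pts, f (p, η) ∂μ = ∫⁻ p, ∫⁻ η, f (p, Conf.ins p η) ∂μ ∂m := by
  have hWm : ∀ k, MeasurableSet (disjointed (spanningSets m) k) := MeasurableSet.disjointed (measurableSet_spanningSets m)
  have hWd : Pairwise (Function.onFun Disjoint (disjointed (spanningSets m))) := disjoint_disjointed _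
  have hWc : ⋃ k, disjointed (spanningSets m) k = univ := by rw [iUnion_disjointed, iUnion_spanningSets]
  have hWf : ∀ k, m (disjointed (spanningSets m) k) ≠ ∞ := fun k =>
    ((measure_mono (disjointed_subset _ _)).trans_lt (measure_spanningSets_lt_top m k)).ne
  rw [lintegral_congr fun η => pvs_tsum_partition hWd hWc η.pts fun p => f (p, η),
    lintegral_tsum fun k => h.sum_aemeasurable (hWm k) (hWf k) hf, tsum_congr fun k => h.mecke_on (hWm k) (hWf k) hf,
    ← lintegral_iUnion hWm hWd, hWc, Measure.restrict_univ]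

/-! ## 4. integrands that are only measurable on the locally finite configurations; two points -/

/-- local finiteness with respect to the canonical exhaustion of a sigma-finite intensity -/
def pvkLF (m : Measure E) [SigmaFinite m] (η : Conf E) : Prop := ∀ k, (η.pts ∩ disjointed (spanningSets m) k).Finite

theorem pvkLF_ins {m : Measure E} [SigmaFinite m] {η : Conf E} (h : pvkLF m η) (p : E) : pvkLF m (Conf.ins p η) := fun k =>
  ((h k).insert p).subset fun q hq => by
    rcases hq.1 with rfl | h1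
    · exact mem_insert _ _
    · exact mem_insert_of_mem _ ⟨h1, hq.2⟩

theorem IsPpp.ae_pvkLF [StandardBorelSpace E] {m : Measure E} {μ : Measure (Conf E)} [SigmaFinite m] (h : IsPpp m μ) : ∀ᵐ η ∂μ, pvkLF m η := by
  unfold pvkLF
  rw [ae_all_iff]
  exact fun k => h.ae_finite (MeasurableSet.disjointed (measurableSet_spanningSets m) k)
    ((measure_mono (disjointed_subset _ _)).trans_lt (measure_spanningSets_lt_top m k)).ne

/-- Mecke's formula for an integrand that coincides with a measurable one on a set of configurations of full measure, stable under insertion -/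
theorem IsPpp.mecke_of_eqOn [StandardBorelSpace E] [Nonempty E] {m : Measure E} {μ : Measure (Conf E)} [SigmaFinite m] [NullSingletonClass m]
    (h : IsPpp m μ) {f f' : E × Conf E → ℝ≥0∞} (hf' : Measurable f') {L : Conf E → Prop} (hL : ∀ᵐ η ∂μ, L η)
    (hins : ∀ p η, L η → L (Conf.ins p η)) (heq : ∀ p η, L η → f (p, η) = f' (p, η)) :
    ∫⁻ η, ∑' p : ↥η.pts, f (p, η) ∂μ = ∫⁻ p, ∫⁻ η, f (p, Conf.ins p η) ∂μ ∂m := by
  rw [lintegral_congr_ae (hL.mono fun η hη => tsum_congr fun p : ↥η.pts => heq p η hη), h.mecke hf']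
  exact lintegral_congr fun p => lintegral_congr_ae (hL.mono fun η hη => (heq p _ (hins p η hη)).symm)

/-- a fixed point is almost surely not a point of the process -/
theorem IsPpp.ae_notMem [MeasurableSingletonClass E] {m : Measure E} {μ : Measure (Conf E)} [NullSingletonClass m] (h : IsPpp m μ) (p : E) :
    ∀ᵐ η ∂μ, p ∉ η.pts := by
  have := h.prob
  have h1 : μ (Conf.void {p}) = 1 := by rw [h.void _ (measurableSet_singleton p), measure_singleton, expNeg_zero]
  have h2 : ∀ᵐ η ∂μ, η ∈ Conf.void {p} := (prob_compl_eq_zero_iff (Conf.measurableSet_void (measurableSet_singleton p))).2 h1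
  exact h2.mono fun η hη hp => Conf.mem_void.1 hη p hp rfl

omit [MeasurableSpace E] in
theorem pvk_tsum_insert {S : Set E} {p : E} {g g' : E → ℝ≥0∞} (hp : g p = 0) (hg : ∀ q ∈ S, q ≠ p → g q = g' q) (hpS : p ∉ S) :
    ∑' q : ↥(insert p S), g q = ∑' q : ↥S, g' q := by
  rw [tsum_subtype, tsum_subtype]
  refine tsum_congr fun q => ?_
  by_cases hq : q ∈ S
  · rw [indicator_of_mem (mem_insert_of_mem p hq), indicator_of_mem hq]
    exact hg q hq fun h => hpS (h ▸ hq)
  · rw [indicator_of_notMem hq]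
    by_cases hqp : q = p
    · rw [hqp, indicator_of_mem (mem_insert p S), hp]
    · exact indicator_of_notMem (fun h => h.elim hqp hq) _

/-- **the two point Mecke formula** (ordered pairs of distinct points) -/
theorem IsPpp.mecke2 [StandardBorelSpace E] [Nonempty E] [DecidableEq E] {m : Measure E} {μ : Measure (Conf E)} [SigmaFinite m] [NullSingletonClass m]
    (h : IsPpp m μ) {f : E × E × Conf E → ℝ≥0∞} (hf : Measurable f) :
    ∫⁻ η, ∑' p : ↥η.pts, ∑' q : ↥η.pts, (if (q : E) = p then 0 else f (p, q, η)) ∂μ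
      = ∫⁻ p, ∫⁻ q, ∫⁻ η, f (p, q, Conf.ins p (Conf.ins q η)) ∂μ ∂m ∂m := by
  have hWm : ∀ k, MeasurableSet (disjointed (spanningSets m) k) := MeasurableSet.disjointed (measurableSet_spanningSets m)
  have hWd : Pairwise (Function.onFun Disjoint (disjointed (spanningSets m))) := disjoint_disjointed _
  have hWc : ⋃ k, disjointed (spanningSets m) k = univ := by rw [iUnion_disjointed, iUnion_spanningSets]
  have hft : Measurable fun z : E × E × Conf E => if z.2.1 = z.1 then 0 else f z :=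
    Measurable.ite (measurableSet_eq_fun (measurable_fst.comp measurable_snd) measurable_fst) measurable_const hf
  obtain ⟨Ψ, hΨ, hΨ'⟩ := pvs_sum_meas_LF (E := E) (α := E) hWm hWd hWc hft
  have e1 := h.mecke_of_eqOn (f := fun z => ∑' q : ↥z.2.pts, (if (q : E) = z.1 then 0 else f (z.1, q, z.2))) hΨ h.ae_pvkLF
    (fun p η hη => pvkLF_ins hη p) (fun p η hη => (hΨ' p η hη).symm)
  refine e1.trans (lintegral_congr fun p => ?_)
  have hfp : Measurable fun z : E × Conf E => f (p, z.1, Conf.ins p z.2) :=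
    hf.comp (measurable_const.prodMk (measurable_fst.prodMk (Conf.measurable_ins.comp (measurable_const.prodMk measurable_snd))))
  rw [← h.mecke hfp]
  refine lintegral_congr_ae ((h.ae_notMem p).mono fun η hη => ?_)
  exact pvk_tsum_insert (S := η.pts) (p := p) (g := fun q => if q = p then 0 else f (p, q, Conf.ins p η))
    (g' := fun q => f (p, q, Conf.ins p η)) (if_pos rfl) (fun q _ hq => if_neg hq) hη

/-! ## 5. the Poisson-Voronoi process -/

instance pvk_sigmaFinite (ε : ℝ) : SigmaFinite (pvInt ε) := by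
  have : pvInt ε = (((ε⁻¹) ^ 2).toNNReal) • ((volume : Measure ℂ).prod pvCoin) := rfl
  rw [this]; infer_instance

instance pvk_nullSingleton (ε : ℝ) : NullSingletonClass (pvInt ε) := ⟨fun x => by
  unfold pvInt
  rw [Measure.smul_apply, measure_singleton, smul_zero]⟩

/-- Mecke's formula for the marked Poisson process of the frozen model -/
theorem pvk_pv (ε : ℝ) {f : PvPt × Conf PvPt → ℝ≥0∞} (hf : Measurable f) :
    ∫⁻ η, ∑' p : ↥η.pts, f (p, η) ∂pvP ε = ∫⁻ p, ∫⁻ η, f (p, Conf.ins p η) ∂pvP ε ∂pvInt ε :=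
  (pv_isPpp ε).mecke hf

theorem pvk_pv2 (ε : ℝ) {f : PvPt × PvPt × Conf PvPt → ℝ≥0∞} (hf : Measurable f) :
    ∫⁻ η, ∑' p : ↥η.pts, ∑' q : ↥η.pts, (if (q : PvPt) = p then 0 else f (p, q, η)) ∂pvP ε
      = ∫⁻ p, ∫⁻ q, ∫⁻ η, f (p, q, Conf.ins p (Conf.ins q η)) ∂pvP ε ∂pvInt ε ∂pvInt ε :=
  (pv_isPpp ε).mecke2 hf

/-- integration against the intensity: area, then the fair coin -/
theorem pvk_lintegral_pvInt (ε : ℝ) {g : PvPt → ℝ≥0∞} (hg : Measurable g) :
    ∫⁻ p, g p ∂pvInt ε = ENNReal.ofReal ((ε⁻¹) ^ 2) * ∫⁻ z : ℂ, (2⁻¹ * g (z, true) + 2⁻¹ * g (z, false)) := by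
  unfold pvInt
  rw [lintegral_smul_measure, lintegral_prod _ hg.aemeasurable, smul_eq_mul]
  congr 1
  refine lintegral_congr fun z => ?_
  rw [lintegral_fintype]
  simp only [Fintype.univ_bool, Finset.mem_singleton, Bool.true_eq_false, not_false_eq_true, Finset.sum_insert, Finset.sum_singleton, pvCoin_apply]
  ring

end Claimed.Agent.R289
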